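import Vale.Agent.P267F.Final
import Vale.Agent.P267G.Main
import Vale.Agent.P267I.Forms

/-! P267: the curves from duality and the index formula in de Rham form. -/

open scoped Manifold ContDiff Topology
open Filter Matrix

noncomputable section

namespace Vale.Agent.P267

set_option linter.unusedSectionVars false

theorem Gl_zero {M : Type} [TopologicalSpace M] [ChartedSpace C2 M] (G : M → M) :
    IsConnection G (1 : M → M → ℂ) 0 := by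
  refine ⟨fun p v => .of_forall fun z => ?_, fun p => .of_forall fun q => .of_forall fun x => ?_,
    fun p => .of_forall fun x => by simp⟩
  · simpa [inChart] using contDiffAt_const
  · have : ((1 : M → ℂ) ∘ (chartAt C2 x).symm) = fun _ => 1 := rfl
    simp [dAt, this]

theorem Gl_pair {M : Type} [TopologicalSpace M] [ChartedSpace C2 M] {n : ℕ}
    (P : Fin n → OpenPartialHomeomorph M C2) (ψ : Fin n → M → ℝ) (θ : M → M → C2 →L[ℝ] ℂ) :
    pairing P ψ 0 θ = 0 := by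
  have : ∀ a z, curv (P a) (0 : M → M → C2 →L[ℝ] ℂ) z = 0 := fun a z => by
    funext i j
    simp [curv, extD, inChart]
  simp [pairing, this, wedge]

theorem Gl_real {m : ℕ} {Q : Matrix (Fin m) (Fin m) ℤ} (h : ∀ x : Fin m → ℤ, x ⬝ᵥ Q *ᵥ x ≤ 0)
    (x : Fin m → ℝ) : x ⬝ᵥ (Q.map (Int.cast : ℤ → ℝ)) *ᵥ x ≤ 0 := by
  have hq : ∀ y : Fin m → ℚ,
      (fun i => (y i : ℝ)) ⬝ᵥ (Q.map (Int.cast : ℤ → ℝ)) *ᵥ (fun i => (y i : ℝ)) ≤ 0 := fun y => by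
    obtain ⟨n, hn, k⟩ : ∃ n : ℕ, 0 < n ∧ ∀ i, ∃ z : ℤ, (z : ℚ) = n * y i := by
      refine ⟨∏ i, (y i).den, Finset.prod_pos fun i _ => (y i).den_pos, fun i => ?_⟩
      rw [← Finset.mul_prod_erase _ _ (Finset.mem_univ i)]
      refine ⟨(∏ j ∈ Finset.univ.erase i, (y j).den : ℕ) * (y i).num, ?_⟩
      have := Rat.den_mul_eq_num (y i)
      push_cast
      rw [← this]
      ring
    choose z hz using k
    have h1 : ((z ⬝ᵥ Q *ᵥ z : ℤ) : ℝ) ≤ 0 := by exact_mod_cast h z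
    have h2 : ∀ i, (z i : ℝ) = n * (y i : ℝ) := fun i => by exact_mod_cast hz i
    have h3 : ((z ⬝ᵥ Q *ᵥ z : ℤ) : ℝ) = (n : ℝ) ^ 2 *
        ((fun i => (y i : ℝ)) ⬝ᵥ (Q.map (Int.cast : ℤ → ℝ)) *ᵥ fun i => (y i : ℝ)) := by
      simp only [dotProduct, mulVec, map_apply, Finset.mul_sum]
      push_cast
      refine Finset.sum_congr rfl fun i _ => Finset.sum_congr rfl fun j _ => ?_
      rw [h2, h2]
      ring
    rw [h3] at h1
    have h4 : (0 : ℝ) < (n : ℝ) ^ 2 := by positivity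
    by_contra hc
    exact absurd (mul_pos h4 (not_le.1 hc)) (not_lt.2 h1)
  have hd : DenseRange fun (y : Fin m → ℚ) i => (y i : ℝ) :=
    DenseRange.piMap fun _ => Rat.denseRange_cast
  refine hd.induction_on x (isClosed_le ?_ continuous_const) hq
  simp only [dotProduct, mulVec]
  exact continuous_finset_sum _ fun i _ => (continuous_apply i).mul
    (continuous_finset_sum _ fun j _ => continuous_const.mul (continuous_apply j))

variable {X M : Type} [TopologicalSpace X] [ChartedSpace C2 X] [T2Space X] [CompactSpace X]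
  [IsManifold 𝓘(ℂ, C2) ω X] [TopologicalSpace M] [ChartedSpace C2 M] [T2Space M]
  [IsManifold 𝓘(ℂ, C2) ω M] {π : M → X} {g : M ≃ₜ M}

theorem Gl_h0 [ConnectedSpace X] : Module.finrank ℂ (H0 id (1 : X → X → ℂ)) = 1 := by
  have : H0 id (1 : X → X → ℂ) = Submodule.span ℂ {(1 : X → ℂ)} := by
    refine le_antisymm (Submodule.span_le.2 fun s hs => ?_) (Submodule.span_mono ?_)
    · obtain ⟨v, hv⟩ := MDifferentiable.exists_eq_const_of_compactSpace (I := 𝓘(ℂ, C2)) (f := s)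
        fun p => by simpa using (hs.2 p).cd
      exact Submodule.mem_span_singleton.2 ⟨v, by rw [hv]; ext; simp⟩
    · rintro _ rfl
      exact ⟨rfl, fun p => (holAt_const 1).congr (.of_forall fun _ => by simp)⟩
  rw [this]
  exact finrank_span_singleton one_ne_zero

theorem Gl_cover [ConnectedSpace M] (h : IsCyclic π g) {t : M → ℝ} (ht : IsCover π g t)
    (h7 : IsClassVII X) {m : ℕ} {Q : Matrix (Fin m) (Fin m) ℤ} {c : (X → X → ℂ) → Fin m → ℤ}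
    {e : ℤ} (hF : SForm X Q c e) :
    (∀ x : Fin m → ℤ, x ⬝ᵥ Q *ᵥ x ≤ 0) ∧ c (canon X) ⬝ᵥ Q *ᵥ c (canon X) + e = 0 ∧
    ∃ (l : ℕ) (P : Fin l → OpenPartialHomeomorph X C2) (ψ : Fin l → X → ℝ),
      (∀ a, HolChart (P a)) ∧ (∀ a, Continuous (ψ a)) ∧ (∀ a, tsupport (ψ a) ⊆ (P a).source) ∧
      ∀ x, ∑ a, ψ a x = 1 := by
  have : ConnectedSpace X := h.surj.connectedSpace h.loc.contMDiff.continuous
  have hK : H0 id (canon X) = ⊥ := by simpa only [pow_one] using h7.2 1 le_rfl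
  have H := hF.ineq h ht.shift (fun u hu => P267W.lefschetz hK hu)
    (fun u hu pu => ht.conn_of hu pu) fun u hu pu => ht.twist hu pu
  obtain ⟨l, hl⟩ := h.exists_lf
  obtain ⟨n, P, ψ, hP⟩ := La_part h
  have o1 : IsBundle HolAt (1 : X → X → ℂ) := fun p => .of_forall fun q =>
    ⟨one_ne_zero, (holAt_const 1).congr (.of_forall fun _ => by simp)⟩
  have o2 : IsConnection g (pull π (1 : X → X → ℂ)) 0 := Gl_zero _
  have o3 := h.sm_pull.2 o1.smooth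
  have c1 : ∀ x, c 1 ⬝ᵥ Q *ᵥ x = 0 := fun x => by
    obtain ⟨v, hv, rfl⟩ := (H x).1
    have hv' := h.hol_pull.2 hv
    obtain ⟨θ, hθ⟩ := ht.conn_of hv' (h.pull_pull _)
    have a := hF.pairOf h hl _ _ 0 θ o3 (h.pull_pull _) hv'.smooth (h.pull_pull _) o2 hθ n P ψ hP
    rw [Gl_pair] at a
    simpa only [hl.dsc_pull, Int.cast_eq_zero] using a.symm
  refine ⟨fun x => ?_, ?_, ?_⟩
  · by_contra hx
    push Not at hx
    obtain ⟨k, hk⟩ : ∃ k, k = c (canon X) ⬝ᵥ Q *ᵥ c (canon X) + e := ⟨_, rfl⟩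
    obtain ⟨b, hb⟩ : ∃ b, b = x ⬝ᵥ Q *ᵥ c (canon X) := ⟨_, rfl⟩
    obtain ⟨d, d1, d2⟩ := (H ((|k| + |b| + 1) • x)).2
    rw [smul_dotProduct, smul_dotProduct, mulVec_smul, dotProduct_smul, add_assoc _ _ e, ← hk,
      ← hb] at d2
    simp only [smul_eq_mul] at d2
    have k1 := abs_nonneg k
    have k2 := abs_nonneg b
    have k3 := neg_abs_le k
    have k4 := le_abs_self b
    obtain ⟨s, hs⟩ : ∃ s, s = |k| + |b| + 1 := ⟨_, rfl⟩
    rw [← hs] at d2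
    have k5 : s ≤ s * (x ⬝ᵥ Q *ᵥ x) := le_mul_of_one_le_right (by omega) hx
    have k6 : s * (|k| + 1) ≤ s * (s * (x ⬝ᵥ Q *ᵥ x) - b) :=
      mul_le_mul_of_nonneg_left (by omega) (by omega)
    have k7 : |k| + 1 ≤ s * (|k| + 1) := le_mul_of_one_le_left (by omega) (by omega)
    rw [mul_sub] at k6
    omega
  · obtain ⟨d, d1, d2⟩ := hF.rr 1 o1
    have q1 := q_one (X := X) h7.1 fun θ hθ l P ψ p1 p2 p3 p4 => by
      rw [hF.pair 1 1 θ θ o1.smooth o1.smooth hθ hθ l P ψ p1 p2 p3 p4, c1, Int.cast_zero]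
    have d3 := d1.2
    rw [q1, Gl_h0, div_one, hK, finrank_bot] at d3
    rw [c1, c1] at d2
    omega
  · obtain ⟨-, -, r, R, φ, -, -, a3, a4, a5, a6, -⟩ :=
      hl.pair h o3 (h.pull_pull _) o3 (h.pull_pull _) o2 o2 hP
    exact ⟨r, R, φ, a3, a4, a5, a6⟩

theorem Gl_lattice [ConnectedSpace M] (h : IsCyclic π g) (h7 : IsClassVII X)
    (hP : P267I.PDdR X) (hI : P267I.IndexThm X) :
    ∃ (L1 : Fin (P267I.b2dR X) → M → M → ℂ) (c1 : (M → M → ℂ) → Fin (P267I.b2dR X) → ℤ),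
      IsLattice g (pull π (canon X)) L1 c1 := by
  obtain ⟨Q, c, h1, h2, h3, h4, h5⟩ := hP
  obtain ⟨bp, bm, ⟨s1, s2⟩, hR⟩ := hI
  have hK : IsBundle HolAt (canon X) := canon_hol
  have kk := h4 _ _ (br_hol_sm hK) (br_hol_sm hK)
  obtain ⟨d0, -, e0⟩ := hR _ _ _ _ hK kk kk kk
  have hF : SForm X Q c (12 * d0 - c (canon X) ⬝ᵥ Q *ᵥ c (canon X)) := by
    refine ⟨h1, h2, h3, fun u v θ θ' hu hv a b l P ψ p1 p2 p3 p4 =>
      h4 u v hu hv θ θ' l P ψ ⟨a.smooth, a.compat⟩ ⟨b.smooth, b.compat⟩ p1 p2 p3 p4,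
      fun u hu => ?_⟩
    obtain ⟨d, e1, e2⟩ := hR u _ _ _ hu (h4 u u (br_hol_sm hu) (br_hol_sm hu))
      (h4 u _ (br_hol_sm hu) (br_hol_sm hK)) kk
    refine ⟨d, br_euler e1, ?_⟩
    change 8 * d = 4 * (c u ⬝ᵥ Q *ᵥ c u - c u ⬝ᵥ Q *ᵥ c (canon X)) +
      c (canon X) ⬝ᵥ Q *ᵥ c (canon X) - (bp - bm) at e2
    change 8 * d0 = 4 * (c (canon X) ⬝ᵥ Q *ᵥ c (canon X) - c (canon X) ⬝ᵥ Q *ᵥ c (canon X)) +
      c (canon X) ⬝ᵥ Q *ᵥ c (canon X) - (bp - bm) at e0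
    omega
  obtain ⟨l, hl⟩ := h.exists_lf
  obtain ⟨k1, k2, n, P, ψ, p1, p2, p3, p4⟩ : (∀ x, x ⬝ᵥ Q *ᵥ x ≤ 0) ∧ c (canon X) ⬝ᵥ Q *ᵥ
      c (canon X) + (12 * d0 - c (canon X) ⬝ᵥ Q *ᵥ c (canon X)) = 0 ∧ _ := by
    rcases h.drift_pair h7.1 (hF.pairOf h hl) with ⟨t, ht⟩ | ⟨t, ht⟩
    exacts [Gl_cover h ht h7 hF, Gl_cover h.inv ht h7 hF]
  have b0 : bp = 0 := by
    by_contra hb
    obtain ⟨α, d, a1, a2, a3, a4⟩ := s2 (Nat.pos_of_ne_zero hb)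
    obtain ⟨x, hx⟩ := h5 α a1 a2
    have a5 := (a4 n P ψ p1 p2 p3 p4).symm.trans (hx n P ψ p1 p2 p3 p4)
    have a6 := Gl_real k1 x
    rw [← Complex.ofReal_inj.1 a5] at a6
    exact absurd a3 (not_lt.2 a6)
  have e : 12 * d0 - c (canon X) ⬝ᵥ Q *ᵥ c (canon X) = (P267I.b2dR X : ℤ) := by
    change 8 * d0 = 4 * (c (canon X) ⬝ᵥ Q *ᵥ c (canon X) - c (canon X) ⬝ᵥ Q *ᵥ c (canon X)) +
      c (canon X) ⬝ᵥ Q *ᵥ c (canon X) - (bp - bm) at e0
    omega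
  rw [e] at hF
  exact hF.lattice h h7

theorem final_curvesDR {X : Type} [TopologicalSpace X] [ChartedSpace C2 X] (hX : IsSurface X)
    (h7 : P267F.IsClassVII X)
    (h : ∀ (Y : Type) [TopologicalSpace Y] [ChartedSpace C2 Y], IsSurface Y →
      ∀ w : Y → X, IsLocalDiffeomorph 𝓘(ℂ, C2) 𝓘(ℂ, C2) ω w →
        P267I.PDdR Y ∧ P267I.IndexThm Y) : P267I.HasCurvesDR X := by
  obtain ⟨a1, a2, a3, a4⟩ := id hX
  obtain ⟨M, _, _, _, _, _, π, g, h4⟩ := P267X.exists_cyclic X h7.1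
  have h0 := h X hX id (Diffeomorph.refl 𝓘(ℂ, C2) X ω).isLocalDiffeomorph
  obtain ⟨L, c, hL⟩ := Gl_lattice h4 (br_class h7) h0.1 h0.2
  refine P267K.curves5 h4 h7.1 (br_class h7).2
    (P267Q.lattices_lat (fun Y _ _ hY hY7 w hw p G hp => ?_) h4 h7.1 (br_class h7).2 hL)
  obtain ⟨b1, b2, b3, b4⟩ := id hY
  exact ⟨_, Gl_lattice hp hY7 (h Y hY w hw).1 (h Y hY w hw).2⟩

end Vale.Agent.P267
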