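import Vale.Agent.P267I.Glue
import Vale.Agent.P267I.Forms2

/-! P267: integrality of the intersection numbers from the index formula. -/

open scoped Manifold ContDiff Topology
open Filter Matrix

noncomputable section

namespace Vale.Agent.P267

theorem Gl_int {X : Type} [TopologicalSpace X] [ChartedSpace C2 X] (hX : IsSurface X)
    (h7 : IsClassVII X) (hC : P267I.CWForm X) (hI : P267I.IndexThmC X) : P267I.InterInt X := by
  obtain ⟨a1, a2, a3, a4⟩ := id hX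
  obtain ⟨I, i1, i2, i3, i4⟩ := hC
  obtain ⟨bp, bm, -, hR⟩ := hI
  have hK : H0 id (canon X) = ⊥ := by simpa only [pow_one] using h7.2 1 le_rfl
  have k1 : IsBundle SmAt (canon X) := br_hol_sm canon_hol
  have R : ∀ u : X → X → ℂ, IsBundle HolAt u → ∃ d : ℤ, 8 * (d : ℂ) =
      4 * (I u u - I u (canon X)) + I (canon X) (canon X) - (bp - bm) := fun u hu => by
    obtain ⟨d, -, e⟩ := hR u _ _ _ hu (i1 u u (br_hol_sm hu) (br_hol_sm hu))
      (i1 u _ (br_hol_sm hu) k1) (i1 _ _ k1 k1)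
    exact ⟨d, e⟩
  intro u v hu hv
  obtain ⟨u', hu', su⟩ := P267W.lefschetz hK hu
  obtain ⟨v', hv', sv⟩ := P267W.lefschetz hK hv
  have o1 : IsBundle HolAt (1 : X → X → ℂ) := fun p => .of_forall fun q =>
    ⟨one_ne_zero, (holAt_const 1).congr (.of_forall fun _ => by simp)⟩
  have o2 := br_hol_sm o1
  have u2 := br_hol_sm hu'
  have v2 := br_hol_sm hv'
  have m1 : IsBundle HolAt (u' * v') := fun p => ((hu' p).and (hv' p)).mono fun q hq =>
    ⟨mul_ne_zero hq.1.1 hq.2.1, (hq.1.2.mul hq.2.2).congr (.of_forall fun x => by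
      simp only [Pi.mul_apply, Pi.div_apply]
      ring)⟩
  have m2 := br_hol_sm m1
  have z : ∀ w, IsBundle SmAt w → I 1 w = 0 := fun w hw => by
    have := i3 1 1 w o2 o2 hw
    rw [mul_one] at this
    linear_combination -this
  obtain ⟨d0, e0⟩ := R 1 o1
  obtain ⟨d1, e1⟩ := R u' hu'
  obtain ⟨d2, e2⟩ := R v' hv'
  obtain ⟨d3, e3⟩ := R _ m1
  rw [z _ o2, z _ k1] at e0
  rw [i3 _ _ _ u2 v2 m2, i3 _ _ _ u2 v2 k1, i2 _ _ u2 m2, i2 _ _ v2 m2, i3 _ _ _ u2 v2 u2,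
    i3 _ _ _ u2 v2 v2, i2 _ _ v2 u2] at e3
  refine ⟨d3 - d1 - d2 + d0, P267I.interC_int.1 ?_⟩
  have e : I u v = ((d3 - d1 - d2 + d0 : ℤ) : ℂ) := by
    rw [i4 u u' v hu u2 hv su, i2 _ _ u2 hv, i4 v v' u' hv v2 u2 sv, i2 _ _ v2 u2]
    push_cast
    linear_combination (e1 + e2 - e3 - e0) / 8
  exact e ▸ i1 u v hu hv

/-- The final glue. -/
theorem final_glue
    (hC : ∀ (Y : Type) [TopologicalSpace Y] [ChartedSpace C2 Y], IsSurface Y → P267I.CWForm Y)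
    (hP : ∀ (Y : Type) [TopologicalSpace Y] [ChartedSpace C2 Y], IsSurface Y →
      P267I.InterInt Y → P267I.PDdR Y)
    (hI : ∀ (Y : Type) [TopologicalSpace Y] [ChartedSpace C2 Y], IsSurface Y → P267I.IndexThmC Y)
    {X : Type} [TopologicalSpace X] [ChartedSpace C2 X] (hX : IsSurface X)
    (h7 : P267F.IsClassVII X) : P267I.HasCurvesDR X := by
  obtain ⟨a1, a2, a3, a4⟩ := id hX
  obtain ⟨M, _, _, _, _, _, π, g, h4⟩ := P267X.exists_cyclic X h7.1
  have k7 := br_class h7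
  obtain ⟨L, c, hL⟩ := Gl_lattice h4 k7 (hP X hX (Gl_int hX k7 (hC X hX) (hI X hX))) (hI X hX).int
  refine P267K.curves5 h4 h7.1 k7.2
    (P267Q.lattices_lat (fun Y _ _ hY hY7 w hw p G hp => ?_) h4 h7.1 k7.2 hL)
  obtain ⟨b1, b2, b3, b4⟩ := id hY
  exact ⟨_, Gl_lattice hp hY7 (hP Y hY (Gl_int hY hY7 (hC Y hY) (hI Y hY))) (hI Y hY).int⟩

end Vale.Agent.P267
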