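import Vale.Agent.P267I.XM
import Vale.Agent.P267I.HAll
import Vale.Agent.P267J.YMain
import Vale.Agent.P267Y.JS
import Vale.Agent.P267F.Canon

/-! The index theorem for line bundles on a surface. -/

open scoped Manifold ContDiff Topology
open Filter Matrix MeasureTheory Complex

noncomputable section

namespace Vale.Agent.P267I

open Vale.Agent.P267F

variable {X : Type} [TopologicalSpace X] [ChartedSpace C2 X]

theorem IdxD_one [IsManifold 𝓘(ℂ, C2) ω X] [T2Space X] [CompactSpace X] [ConnectedSpace X]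
    [MeasurableSpace X] [BorelSpace X] (hX : IsSurface X) {G : Met X} {u l : X → X → ℂ}
    (h : G.Ln u l) (hu : IsBundle HolAt u) {a b k : ℂ} (h1 : InterC u u a)
    (h2 : InterC u (canon X) b) (h3 : InterC (canon X) (canon X) k) :
    ∃ d : ℤ, Euler u d ∧
      8 * (d : ℂ) = 4 * (a - b) + k + (G.S16.ind (G.S16.BofA G.A16) : ℂ) := by
  obtain ⟨B, hB, e⟩ := h.index hu h1 h2 h3
  refine ⟨_, P267Y.euler_S4 hu h hB (hodge hX _) (indInv hX _), ?_⟩
  have := e (localIndex_of (P267J.Y.alg0 _) hX _) (localIndex_of (P267J.Y.alg0 _) hX _)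
  push_cast
  linear_combination -this

theorem indexThmD (hX : IsSurface X) : IndexThmC X := by
  obtain ⟨a1, a2, a3, a4⟩ := id hX
  letI : MeasurableSpace X := borel X
  haveI : BorelSpace X := ⟨rfl⟩
  have hK : IsBundle HolAt (canon X) := P267.canon_hol
  obtain ⟨G, l, -, hl, -⟩ := exists_ln2 hK hK
  obtain ⟨bp, bm, h1, h2⟩ := G.sig16 hX
  refine ⟨bp, bm, h1, fun u a b k hu ha hb hk => ?_⟩
  obtain ⟨G', m, m', hm, hm'⟩ := exists_ln2 hu hK
  obtain ⟨d, d1, d2⟩ := IdxD_one hX hm hu ha hb hk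
  obtain ⟨e, e1, e2⟩ := IdxD_one hX hm' hK hk hk hk
  obtain ⟨f, f1, f2⟩ := IdxD_one hX hl hK hk hk hk
  obtain rfl : e = f := e1.2.symm.trans f1.2
  refine ⟨d, d1, ?_⟩
  rw [h2] at f2
  push_cast at f2
  linear_combination d2 - e2 + f2

end Vale.Agent.P267I
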