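import Vale.Agent.P267I.Sys
import Vale.Agent.P267I.SJ
import Vale.Agent.P267Y.Defs2

/-! The twisted system is the Dolbeault system. -/

open scoped Manifold ContDiff Topology Kronecker
open Filter Matrix MeasureTheory Complex

noncomputable section

namespace Vale.Agent.P267I

open Vale.Agent.P267F

variable {X : Type} [TopologicalSpace X] [ChartedSpace C2 X] [IsManifold 𝓘(ℂ, C2) ω X]
  [T2Space X] [CompactSpace X] [MeasurableSpace X] [BorelSpace X] {G : Met X}
  {u l : X → X → ℂ} {p x : X}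

theorem SD_lam (J : Mat 2) : P267Y.lam J = r4 Jᴴ := by
  rw [r4, det_conjTranspose]
  rfl

theorem SD_cc : cl4.c = P267Y.cc := by
  funext a
  fin_cases a <;> ext i j <;> fin_cases i <;> fin_cases j <;>
    simp [cl4, cv_eq, P267Y.cc, P267Y.nn, bs]

theorem SD_Em (h : G.Ln u l) (p : X) (z : C2) : P267Y.Em h.S4 p z = G.E p z := by
  ext i j
  fin_cases i <;> fin_cases j <;> simp [P267Y.Em, Met.Ln.S4, Met.pre, Met.e, bs]

theorem SD_jac (p x : X) : P267Y.jac p x = jac x p x := by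
  ext i j
  simp [P267Y.jac, P267Y.jm, jac, LinearMap.toMatrix'_apply, P267.ee]

theorem SD_self (G : Met X) (x : X) : G.g0 x x = 1 := by
  have hx := G.W_mem x
  rw [Met.g0, if_pos hx, Met.g, gt0, jac_self (G.W_sub x hx), Matrix.mul_one,
    nonsing_inv_mul _ (G.E_det x _ ⟨x, hx, rfl⟩).isUnit]

theorem SD_g (hx : x ∈ G.W p) : G.g0 p x * (G.E x (chartAt C2 x x))ᴴ =
    (G.E p (chartAt C2 p x))ᴴ * (jac x p x)ᴴ := by
  have h0 := G.W_mem x
  have h1 := mul_eq_one_comm.1 (G.g0_unit p x)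
  have h2 : jac x p x * G.E p (chartAt C2 p x) * G.g0 p x = G.E x (chartAt C2 x x) := by
    rw [Met.g0, if_pos hx, Met.g, gt0, Matrix.mul_assoc, Matrix.mul_assoc,
      mul_nonsing_inv_cancel_left _ _ (G.E_det p _ ⟨x, hx, rfl⟩).isUnit, ← Matrix.mul_assoc,
      jac_mul (G.W_sub x h0) (G.W_sub p hx) (G.W_sub x h0), jac_self (G.W_sub x h0),
      Matrix.one_mul]
  rw [← h2, conjTranspose_mul, ← Matrix.mul_assoc, h1, Matrix.one_mul, conjTranspose_mul]

theorem Met.Ln.dolb (h : G.Ln u l) :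
    P267Y.Dolb h.S4 u fun p z => l p ((chartAt C2 p).symm z) where
  c := SD_cc
  e1 p z _ := by
    change G.E p z *ᵥ bs 1 = I • G.E p z *ᵥ bs 0
    rw [← mulVec_smul]
    congr 1
    ext i
    fin_cases i <;> simp [bs]
  e3 p z _ := by
    change G.E p z *ᵥ bs 3 = I • G.E p z *ᵥ bs 2
    rw [← mulVec_smul]
    congr 1
    ext i
    fin_cases i <;> simp [bs]
  gd p x hx := ⟨G.W_sub p hx, (h.ne p x hx).2, h.hol p x hx⟩
  l_sm p := by
    rintro _ ⟨x, hx, rfl⟩
    exact ((smAt_iff (G.W_sub p hx)).1 (h.sm p x hx)).self_of_nhds.contDiffWithinAt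
  l_ne p := by
    rintro _ ⟨x, hx, rfl⟩
    rw [(chartAt C2 p).left_inv (G.W_sub p hx)]
    exact (h.ne p x hx).1
  U_self x := by
    have hx := G.W_mem x
    change G.lam u l x x • r4 (G.g0 x x) = 1
    rw [SD_self, r4_one, Met.lam, if_pos hx,
      div_self (mul_ne_zero (h.ne x x hx).1 (h.ne x x hx).2), one_smul]
  U_eq p x hx := by
    have h0 := G.W_mem x
    have hx' : x ∈ G.W p := hx
    change (G.lam u l p x • r4 (G.g0 p x)) * _ = _
    simp only [P267Y.Gm, SD_Em, SD_lam, SD_jac, (chartAt C2 p).left_inv (G.W_sub p hx'),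
      (chartAt C2 x).left_inv (G.W_sub x h0), smul_mul_assoc, mul_smul_comm, smul_smul, r4_mul,
      SD_g hx']
    congr 1
    have := (h.ne x x h0).1
    have := (h.ne x x h0).2
    rw [Met.lam, if_pos hx']
    field_simp

end Vale.Agent.P267I
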