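import Vale.Agent.P267I.SJ
import Vale.Agent.P267I.SB
import Vale.Agent.P267L.LT3

/-! The two Dirac systems. -/

open scoped Manifold ContDiff Topology Kronecker
open Filter Matrix MeasureTheory Complex

noncomputable section

namespace Vale.Agent.P267I

open Vale.Agent.P267F

variable {X : Type} [TopologicalSpace X] [ChartedSpace C2 X] [IsManifold 𝓘(ℂ, C2) ω X]
  [T2Space X] [CompactSpace X] [MeasurableSpace X] [BorelSpace X] {G : Met X}
  {u l w : X → X → ℂ} {θ : X → X → C2 →L[ℝ] ℂ} {p q x : X} {N : ℕ} {S : Pre X N}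
  {A : X → Fin 4 → C2 → Mat N} {om : X → Fin 4 → Fin 4 → Fin 4 → C2 → ℝ} {z : C2}

theorem SM5_re {F : C2 → ℂ} (h : ∀ y, ‖F y‖ = 1) (z v : C2) :
    ((F z)⁻¹ * fderiv ℝ F z v).re = 0 := by
  by_cases hF : DifferentiableAt ℝ F z
  · have d := hF.hasFDerivAt
    have k := d.mul ((Complex.conjCLE : ℂ →L[ℝ] ℂ).hasFDerivAt.comp z d)
    have e : F * (Complex.conjCLE : ℂ →L[ℝ] ℂ) ∘ F = fun _ => (1 : ℂ) := by
      funext y
      simp [Complex.mul_conj, Complex.normSq_eq_norm_sq, h y]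
    rw [e] at k
    have k1 := congrArg (fun L : C2 →L[ℝ] ℂ => (L v).re) (k.unique (hasFDerivAt_const 1 z))
    rw [Complex.inv_eq_conj (h z)]
    simp at k1 ⊢
    linarith
  · rw [fderiv_zero_of_not_differentiableAt hF]
    simp

theorem SM5_nrm (h : G.Ln u l) (p x : X) : ‖G.dw u l p x‖ = 1 := by
  have h1 := congrArg (fun A : Mat 4 => ‖A.det‖) (h.U_unit p x)
  simp only [det_mul, det_conjTranspose, norm_mul, norm_star, det_one, norm_one] at h1
  exact (mul_self_eq_one_iff.1 h1).resolve_right fun e => by linarith [norm_nonneg (G.U4 u l p x).det]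

theorem SM5_g (G : Met X) (hx : x ∈ G.W p ∩ G.W q) (i j : Fin 2) :
    P267.SmAt (fun y => G.g p q y i j) x := by
  have ho : IsOpen (chartAt C2 p '' (G.W p ∩ G.W p ∩ G.W q)) :=
    (chartAt C2 p).isOpen_image_of_subset_source
      (((G.W_open p).inter (G.W_open p)).inter (G.W_open q)) fun y hy => G.W_sub p hy.1.1
  refine ((P267.isCh_chartAt p).sm x (G.W_sub p hx.1) _).2 ?_
  filter_upwards [ho.mem_nhds ⟨x, ⟨⟨hx.1, hx.1⟩, hx.2⟩, rfl⟩] with y hy
  exact (G.g_sm p p q i j y hy).contDiffAt (ho.mem_nhds hy)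

theorem Met.exists_cn (G : Met X)
    (hw : ∀ p, ∀ x ∈ G.W p, w p x ≠ 0 ∧ ∀ q, x ∈ G.W q → SmAt (w p / w q) x) :
    ∃ θ : X → X → C2 →L[ℝ] ℂ,
      (∀ p v, ContDiffOn ℝ ∞ (fun z => inChart (chartAt C2 p) (θ p) z v) (G.V p)) ∧
      (∀ p q, ∀ x ∈ G.W p ∩ G.W q, θ p x - θ q x = ((w p / w q) x)⁻¹ • dAt (w p / w q) x) ∧
      ((∀ p x, ‖w p x‖ = 1) → ∀ p, ∀ x ∈ G.W p, ∀ v, (θ p x v).re = 0) := by
  obtain ⟨n, c, ρ, hs, -, -, ht, h1⟩ := exists_pou G.W_open G.W_mem
  have h0 : ∀ a x, x ∉ G.W (c a) → ρ a x = 0 := fun a x hx =>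
    image_eq_zero_of_notMem_tsupport fun k => hx (ht a k)
  refine ⟨fun p x => ∑ a, (ρ a x : ℂ) • P267.LT3_dl (w p / w (c a)) x, fun p v => ?_,
    fun p q x hx => ?_, fun hn p x _ v => ?_⟩
  · rintro _ ⟨x, hx, rfl⟩
    have hp := G.W_sub p hx
    have hl := (chartAt C2 p).left_inv hp
    have hz := (chartAt C2 p).map_source hp
    have e : (fun z => inChart (chartAt C2 p)
        (fun x => ∑ a, (ρ a x : ℂ) • P267.LT3_dl (w p / w (c a)) x) z v) = fun z =>
          ∑ a, (ρ a ((chartAt C2 p).symm z) : ℂ) *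
            P267.inChart (chartAt C2 p) (P267.LT3_dl (w p / w (c a))) z v := by
      funext z
      simp only [inChart, P267.inChart, ContinuousLinearMap.comp_apply, _root_.sum_apply,
        _root_.smul_apply, smul_eq_mul]
    rw [e]
    refine (ContDiffAt.sum fun a _ => ?_).contDiffWithinAt
    by_cases ha : x ∈ G.W (c a)
    · have k := (hw p x hx).2 _ ha
      have k1 := P267.LT3_in (P267.isCh_chartAt p) (f := w p / w (c a)) hz (by rw [hl]; exact k)
      have k2 := (((P267.isCh_chartAt p).sm x hp _).1 k).self_of_nhds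
      have k3 : ((w p / w (c a)) ∘ (chartAt C2 p).symm) (chartAt C2 p x) ≠ 0 := by
        rw [Function.comp_apply, hl]
        exact div_ne_zero (hw p x hx).1 (hw _ x ha).1
      refine (((P267.isCh_chartAt p).sm x hp _).1 (hs a x)).self_of_nhds.mul
        ((P267.LT3_cd k2 k3 v).congr_of_eventuallyEq ?_)
      filter_upwards [k1] with y hy
      rw [hy]
    · refine (contDiffAt_const (c := (0 : ℂ))).congr_of_eventuallyEq ?_
      have k : ∀ᶠ y in 𝓝 x, ρ a y = 0 := notMem_tsupport_iff_eventuallyEq.1 fun k => ha (ht a k)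
      filter_upwards [((chartAt C2 p).tendsto_symm hp).eventually k] with y hy
      rw [hy, Complex.ofReal_zero, zero_mul]
  · have k : ∀ a, (ρ a x : ℂ) • P267.LT3_dl (w p / w (c a)) x -
        (ρ a x : ℂ) • P267.LT3_dl (w q / w (c a)) x =
          (ρ a x : ℂ) • P267.LT3_dl (w p / w q) x := fun a => by
      by_cases ha : x ∈ G.W (c a)
      · have e : w p / w (c a) =ᶠ[𝓝 x] w p / w q * (w q / w (c a)) := by
          filter_upwards [(G.W_open q).mem_nhds hx.2] with y hy
          exact (div_mul_div_cancel₀ (hw q y hy).1).symm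
        rw [P267.LT3_congr e, P267.LT3_mul ((hw p x hx.1).2 _ hx.2) ((hw q x hx.2).2 _ ha)
          (div_ne_zero (hw p x hx.1).1 (hw q x hx.2).1)
          (div_ne_zero (hw q x hx.2).1 (hw _ x ha).1)]
        ext1 v
        simp only [_root_.sub_apply, _root_.smul_apply, _root_.add_apply, smul_eq_mul]
        ring
      · ext1 v
        simp only [h0 a x ha, Complex.ofReal_zero, _root_.sub_apply, _root_.smul_apply,
          smul_eq_mul, zero_mul, sub_zero]
    have k1 : ∑ a, (ρ a x : ℂ) = 1 := by rw [← Complex.ofReal_sum, h1, Complex.ofReal_one]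
    beta_reduce
    rw [← Finset.sum_sub_distrib, Finset.sum_congr rfl fun a _ => k a]
    ext1 v
    simp only [_root_.sum_apply, _root_.smul_apply, smul_eq_mul, ← Finset.sum_mul, k1, one_mul]
    rfl
  · simp only [_root_.sum_apply, _root_.smul_apply, smul_eq_mul, Complex.re_sum,
      Complex.re_ofReal_mul]
    refine Finset.sum_eq_zero fun a _ => mul_eq_zero_of_right _ ?_
    have k := SM5_re (F := (w p / w (c a)) ∘ (chartAt C2 x).symm)
      (fun y => by simp only [Function.comp_apply, Pi.div_apply, norm_div, hn, div_one])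
      (chartAt C2 x x) v
    rw [Function.comp_apply, (chartAt C2 x).left_inv (mem_chart_source C2 x)] at k
    exact k

theorem Met.Ln.dw_div (h : G.Ln u l) (hx : x ∈ G.W p ∩ G.W q) : (G.dw u l p / G.dw u l q) x =
    (l p x * u p x / (l q x * u q x)) ^ 4 * (G.g p q x).det ^ 2 := by
  have a : star (G.g0 q x).det * (G.g0 q x).det = 1 := by
    rw [← det_conjTranspose, ← det_mul, G.g0_unit, det_one]
  rw [← h.lam_mul hx, ← Met.g0_mul hx, det_mul, det_conjTranspose,
    eq_inv_of_mul_eq_one_left a, star_def, ← Complex.inv_eq_conj (h.lam_norm q x)]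
  simp only [Pi.div_apply, Met.dw, Met.U4, det_smul, r4_det, Fintype.card_fin]
  ring

theorem Met.Ln.cn (h : G.Ln u l) : ∃ θ, G.Cn (G.dw u l) θ := by
  obtain ⟨θ, h1, h2, h3⟩ := G.exists_cn (w := G.dw u l) fun p x hx =>
    ⟨norm_ne_zero_iff.1 (by rw [SM5_nrm h]; exact one_ne_zero), fun q hq => by
      have g := SM5_g G (p := p) (q := q) ⟨hx, hq⟩
      refine ((P267.SmAt.pow (h.ratio_sm ⟨hx, hq⟩) 4).mul
        ((((g 0 0).mul (g 1 1)).sub ((g 0 1).mul (g 1 0))).pow 2)).congr ?_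
      filter_upwards [((G.W_open p).inter (G.W_open q)).mem_nhds ⟨hx, hq⟩] with y hy
      rw [h.dw_div hy, det_fin_two]
      rfl⟩
  exact ⟨θ, h1, h3 (SM5_nrm h), h2⟩

end Vale.Agent.P267I
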