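import Vale.Agent.P267I.SG0
import Vale.Agent.P267I.SM5

/-! The two Dirac systems. -/

open scoped Manifold ContDiff Topology Kronecker
open Filter Matrix MeasureTheory Complex

noncomputable section

namespace Vale.Agent.P267I

open Vale.Agent.P267F

variable {X : Type} [TopologicalSpace X] [ChartedSpace C2 X] [IsManifold 𝓘(ℂ, C2) ω X]
  [T2Space X] [CompactSpace X] [MeasurableSpace X] [BorelSpace X] {G : Met X}
  {u l w : X → X → ℂ} {θ : X → X → C2 →L[ℝ] ℂ} {p q x : X} {N : ℕ} {S : Pre X N}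
  {A : X → Fin 4 → C2 → Mat N} {om : X → Fin 4 → Fin 4 → Fin 4 → C2 → ℝ} {z : C2}

theorem SG4_det {F : C2 → Mat 2} (h : ∀ i j, DifferentiableAt ℝ (fun y => F y i j) z) :
    DifferentiableAt ℝ (fun y => (F y).det) z := by
  simp only [det_fin_two]
  exact ((h 0 0).mul (h 1 1)).sub ((h 0 1).mul (h 1 0))

theorem SG4_r4 {F : C2 → Mat 2} (h : ∀ i j, DifferentiableAt ℝ (fun y => F y i j) z)
    (i j : Fin 4) : DifferentiableAt ℝ (fun y => r4 (F y) i j) z := by
  have hd := SG4_det h
  fin_cases i <;> fin_cases j <;>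
    first
    | exact differentiableAt_const _
    | exact h _ _
    | exact hd

theorem SG4_dM {T F : C2 → Mat 4} {a : C2 → ℂ} (hT : T =ᶠ[𝓝 z] fun y => a y • F y)
    (ha : DifferentiableAt ℝ a z) (hF : ∀ i j, DifferentiableAt ℝ (fun y => F y i j) z) (v : C2) :
    Pre.dM T z v = fderiv ℝ a z v • F z + a z • Pre.dM F z v := by
  ext i j
  have e : (fun y => T y i j) =ᶠ[𝓝 z] fun y => a y * F y i j :=
    hT.mono fun y hy => by simp only [hy, Matrix.smul_apply, smul_eq_mul]
  simp only [Pre.dM, of_apply, Matrix.add_apply, Matrix.smul_apply, smul_eq_mul]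
  rw [e.fderiv_eq, fderiv_fun_mul ha (hF i j)]
  simp only [_root_.add_apply, _root_.smul_apply, smul_eq_mul]
  ring

theorem SG4_in (hp : x ∈ (chartAt C2 p).source) (α : X → C2 →L[ℝ] ℂ) (v : C2) :
    inChart (chartAt C2 p) α (chartAt C2 p x) v = α x (jac x p x *ᵥ v) := by
  rw [inChart, (chartAt C2 p).left_inv hp, ContinuousLinearMap.comp_apply,
    jac_real (mem_chart_source C2 x) hp]

theorem SG4_dAt (hq : x ∈ (chartAt C2 q).source) {f : X → ℂ}
    (hf : DifferentiableAt ℝ (f ∘ (chartAt C2 q).symm) (chartAt C2 q x)) (v : C2) :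
    dAt f x (jac x q x *ᵥ v) = fderiv ℝ (f ∘ (chartAt C2 q).symm) (chartAt C2 q x) v := by
  have hx := mem_chart_source C2 x
  have h0 : (chartAt C2 x).symm (chartAt C2 x x) = x := (chartAt C2 x).left_inv hx
  have h1 : ∀ᶠ y in 𝓝 (chartAt C2 x x), (chartAt C2 x).symm y ∈ (chartAt C2 q).source := by
    refine ((chartAt C2 x).continuousAt_symm ((chartAt C2 x).map_source hx)).eventually ?_
    rw [h0]
    exact (chartAt C2 q).open_source.mem_nhds hq
  have e : f ∘ (chartAt C2 x).symm =ᶠ[𝓝 (chartAt C2 x x)]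
      (f ∘ (chartAt C2 q).symm) ∘ (chartAt C2 q ∘ (chartAt C2 x).symm) :=
    h1.mono fun y hy => by simp only [Function.comp_apply, (chartAt C2 q).left_inv hy]
  have h2 : DifferentiableAt ℝ (chartAt C2 q ∘ (chartAt C2 x).symm) (chartAt C2 x x) :=
    (tr_sm hq hx).differentiableAt.restrictScalars ℝ
  have h3 : (chartAt C2 q ∘ (chartAt C2 x).symm) (chartAt C2 x x) = chartAt C2 q x := by
    rw [Function.comp_apply, h0]
  rw [dAt, e.fderiv_eq, fderiv_comp _ (h3 ▸ hf) h2, h3, ContinuousLinearMap.comp_apply,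
    jac_real hq hx, mulVec_mulVec, jac_mul hq hx hq, jac_self hq, one_mulVec]

theorem SG4_T (h : G.Ln u l) (hx : x ∈ G.W p ∩ G.W q) : G.U4 u l p x * (G.U4 u l q x)ᴴ =
    (l p x * u p x / (l q x * u q x)) • r4 (G.g p q x) := by
  rw [Met.U4, Met.U4, conjTranspose_smul, smul_mul_smul_comm, h.lam_mul hx, r4_ct, r4_mul,
    Met.g0_mul hx]

theorem Met.Ln.gauge (h : G.Ln u l) (hθ : G.Cn (G.dw u l) θ) : h.S4.Gauge (G.A4 θ) := by
  intro p q x hx
  have hx' : x ∈ G.W p ∩ G.W q := hx
  have hp : x ∈ (chartAt C2 p).source := G.W_sub p hx'.1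
  have hq : x ∈ (chartAt C2 q).source := G.W_sub q hx'.2
  have hxx := mem_chart_source C2 x
  have h0 : (chartAt C2 q).symm (chartAt C2 q x) = x := (chartAt C2 q).left_inv hq
  have hev : ∀ᶠ y in 𝓝 (chartAt C2 q x), (chartAt C2 q).symm y ∈ G.W p ∩ G.W q := by
    refine ((chartAt C2 q).continuousAt_symm ((chartAt C2 q).map_source hq)).eventually ?_
    rw [h0]
    exact ((G.W_open p).inter (G.W_open q)).mem_nhds hx'
  let a : C2 → ℂ := (fun y => l p y * u p y / (l q y * u q y)) ∘ (chartAt C2 q).symm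
  let D : C2 → ℂ := fun y => (G.g p q ((chartAt C2 q).symm y)).det
  have ha : DifferentiableAt ℝ a (chartAt C2 q x) :=
    ((smAt_iff hq).1 (h.ratio_sm hx')).self_of_nhds.differentiableAt (by simp)
  have hg : ∀ i j, DifferentiableAt ℝ (fun y => G.g p q ((chartAt C2 q).symm y) i j)
      (chartAt C2 q x) := fun i j => (Met.g_cd hx' i j).differentiableAt (by simp)
  have hD : DifferentiableAt ℝ D (chartAt C2 q x) := SG4_det hg
  have hT : h.S4.T p q =ᶠ[𝓝 (chartAt C2 q x)]
      fun y => a y • r4 (G.g p q ((chartAt C2 q).symm y)) := hev.mono fun y hy => SG4_T h hy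
  have hT0 : h.S4.T p q (chartAt C2 q x) = a (chartAt C2 q x) • r4 (G.g p q x) := by
    rw [hT.self_of_nhds]
    simp only [h0]
  have hu : (G.g p q x)ᴴ * G.g p q x = 1 := G.unit p q x hx'
  refine ⟨Rr (G.g p q x), fun m n => (Rr_orth hu m n).1, fun k => Met.e_law hx' k, fun k => ?_,
    fun k => ?_⟩
  · have e : r4 (G.g p q x) * cl4.c k = (∑ m, (Rr (G.g p q x) k m : ℂ) • cl4.c m) *
        r4 (G.g p q x) := by
      have := r4_cv hu (bs k)
      rw [cv_co (G.g p q x *ᵥ bs k)] at this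
      exact this
    rw [hT0, smul_mul_assoc, mul_smul_comm]
    exact congrArg _ e
  · have ha0 : a (chartAt C2 q x) ≠ 0 := by
      simp only [a, Function.comp_apply, h0]
      exact div_ne_zero (mul_ne_zero (h.ne p x hx'.1).1 (h.ne p x hx'.1).2)
        (mul_ne_zero (h.ne q x hx'.2).1 (h.ne q x hx'.2).2)
    have hD0 : D (chartAt C2 q x) = (G.g p q x).det := by simp only [D, h0]
    have hD1 : (G.g p q x).det ≠ 0 := fun e => by
      have := congrArg det hu
      rw [det_mul, e, mul_zero, det_one] at this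
      exact zero_ne_one this
    have hf : (G.dw u l p / G.dw u l q) ∘ (chartAt C2 q).symm =ᶠ[𝓝 (chartAt C2 q x)]
        fun y => a y ^ 4 * D y ^ 2 := hev.mono fun y hy => h.dw_div hy
    have hf' := (ha.hasFDerivAt.pow 4).mul (hD.hasFDerivAt.pow 2)
    have hf2 := hf'.congr_of_eventuallyEq hf
    set v := G.e q k (chartAt C2 q x) with hv
    have k1 := congrArg (fun L : C2 →L[ℝ] ℂ => L (jac x q x *ᵥ v)) (hθ.law p q x hx')
    have k0 : (G.dw u l p / G.dw u l q) x = a (chartAt C2 q x) ^ 4 * (G.g p q x).det ^ 2 := by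
      have := hf.self_of_nhds
      rw [Function.comp_apply, h0] at this
      rw [this, ← hD0]
    simp only [_root_.sub_apply, _root_.smul_apply, smul_eq_mul] at k1
    rw [SG4_dAt hq hf2.differentiableAt, hf2.fderiv, k0] at k1
    simp only [_root_.add_apply, _root_.smul_apply, smul_eq_mul,
      hD0] at k1
    have k2 : ∑ m, (Rr (G.g p q x) k m : ℂ) *
        inChart (chartAt C2 p) (θ p) (chartAt C2 p x) (G.e p m (chartAt C2 p x)) =
        θ p x (jac x q x *ᵥ v) := by
      have e := Met.e_law hx' k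
      rw [jac_real hp hq] at e
      rw [← jac_mul hxx hp hq, ← mulVec_mulVec, ← SG4_in hp, hv, e, map_sum]
      simp only [map_smul, real_smul]
    have k3 := Met.A0_law hx' k
    have k4 := SG4_dM hT ha (SG4_r4 hg) v
    have k5 : -(1 / 4) * θ q x (jac x q x *ᵥ v) * a (chartAt C2 q x) - a (chartAt C2 q x) *
        (1 / 2 * ((G.g p q x).det)⁻¹ * fderiv ℝ D (chartAt C2 q x) v) =
        -(1 / 4) * θ p x (jac x q x *ᵥ v) * a (chartAt C2 q x) +
          fderiv ℝ a (chartAt C2 q x) v := by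
      rw [sub_eq_iff_eq_add.1 k1]
      field_simp
      ring
    have k6 : ∑ m, (Rr (G.g p q x) k m : ℂ) • G.A4 θ p m (chartAt C2 p x) =
        ∑ m, (Rr (G.g p q x) k m : ℂ) • G.A0 p m (chartAt C2 p x) +
          (-(1 / 4) * θ p x (jac x q x *ᵥ v)) • (1 : Mat 4) := by
      simp only [Met.A4, smul_add, Finset.sum_add_distrib, smul_smul, ← Finset.sum_smul, ← k2,
        Finset.mul_sum]
      congr 2
      exact Finset.sum_congr rfl fun m _ => by ring
    show h.S4.T p q (chartAt C2 q x) * G.A4 θ q k (chartAt C2 q x) =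
      (∑ m, (Rr (G.g p q x) k m : ℂ) • G.A4 θ p m (chartAt C2 p x)) *
        h.S4.T p q (chartAt C2 q x) + Pre.dM (h.S4.T p q) (chartAt C2 q x) v
    rw [k6, k4, hT0, h0, Met.A4, SG4_in hq, mul_add, add_mul, smul_mul_assoc, k3, ← hv]
    simp only [mul_smul_comm, smul_mul_assoc, mul_one, one_mul, smul_smul]
    linear_combination (norm := module) k5 • r4 (G.g p q x)

end Vale.Agent.P267I
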