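import Vale.Agent.P267I.SC1
import Vale.Agent.P267I.SC2
import Vale.Agent.P267I.ST
import Vale.Agent.P267I.SM5
import Vale.Agent.P267L.LT3

/-! The two Dirac systems. -/

open scoped Manifold ContDiff Topology Kronecker
open Filter Matrix MeasureTheory Complex

noncomputable section

namespace Vale.Agent.P267I

open Vale.Agent.P267F

variable {X : Type} [TopologicalSpace X] [ChartedSpace C2 X] [IsManifold 𝓘(ℂ, C2) ω X]
  [T2Space X] [CompactSpace X] [MeasurableSpace X] [BorelSpace X] {G : Met X}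
  {u l w : X → X → ℂ} {θ : X → X → C2 →L[ℝ] ℂ} {p q x : X} {N : ℕ} {S : Pre X N}
  {A : X → Fin 4 → C2 → Mat N} {om : X → Fin 4 → Fin 4 → Fin 4 → C2 → ℝ} {z : C2}

theorem sw1_open (G : Met X) (p : X) (hz : z ∈ G.V p) : G.V p ∈ 𝓝 z :=
  ((chartAt C2 p).isOpen_image_of_subset_source (G.W_open p) (G.W_sub p)).mem_nhds hz

theorem Met.Cn.curv_eq (hθ : G.Cn w θ)
    (hw : ∀ p, ∀ x ∈ G.W p, w p x ≠ 0 ∧ ∀ q, x ∈ G.W q → SmAt (w p / w q) x) (hz : z ∈ G.V p)
    (j k : Fin 4) : curv (chartAt C2 p) θ z j k =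
      extD (inChart (chartAt C2 p) (θ p)) z (bs j) (bs k) := by
  obtain ⟨x, hx, rfl⟩ := hz
  have hs := G.W_sub p hx
  have ht := (chartAt C2 p).map_source hs
  have e0 := (chartAt C2 p).left_inv hs
  have hsm : SmAt (w x / w p) x := (hw x x (G.W_mem x)).2 p hx
  have h1 := P267.LT3_in (P267.isCh_chartAt p) (f := w x / w p) ht (by rw [e0]; exact hsm)
  have h2 := ((smAt_iff hs).1 hsm).self_of_nhds
  have h3 : ((w x / w p) ∘ (chartAt C2 p).symm) (chartAt C2 p x) ≠ 0 := by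
    rw [Function.comp_apply, e0]
    exact div_ne_zero (hw x x (G.W_mem x)).1 (hw p x hx).1
  have h4 : inChart (chartAt C2 p) (θ x) =ᶠ[𝓝 (chartAt C2 p x)] inChart (chartAt C2 p) (θ p) +
      fun y => (((w x / w p) ∘ (chartAt C2 p).symm) y)⁻¹ •
        fderiv ℝ ((w x / w p) ∘ (chartAt C2 p).symm) y := by
    have h5 : G.W x ∩ G.W p ∈ 𝓝 ((chartAt C2 p).symm (chartAt C2 p x)) := by
      rw [e0]
      exact ((G.W_open x).inter (G.W_open p)).mem_nhds ⟨G.W_mem x, hx⟩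
    filter_upwards [h1, ((chartAt C2 p).continuousAt_symm ht).preimage_mem_nhds h5] with y k1 k2
    rw [Pi.add_apply, ← k1, inChart, sub_eq_iff_eq_add'.1 (hθ.law x p _ k2),
      ContinuousLinearMap.add_comp]
    rfl
  have h6 : ∀ v, DifferentiableAt ℝ (fun y => inChart (chartAt C2 p) (θ p) y v)
      (chartAt C2 p x) := fun v =>
    ((hθ.sm p v).contDiffAt (sw1_open G p ⟨x, hx, rfl⟩)).differentiableAt (by simp)
  have h7 := P267.extD_congr h4 (bs j) (bs k)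
  rw [P267.extD_add h6 fun v => (P267.LT3_cd h2 h3 v).differentiableAt (by simp),
    P267.extD_dlog h2 h3, add_zero] at h7
  rw [curv, e0]
  exact h7

theorem sw1_hw (h : G.Ln u l) (p x : X) (hx : x ∈ G.W p) :
    G.dw u l p x ≠ 0 ∧ ∀ q, x ∈ G.W q → SmAt (G.dw u l p / G.dw u l q) x := by
  refine ⟨?_, fun q hq => ?_⟩
  · have h1 := congrArg Matrix.det (h.U_unit p x)
    rw [det_mul, det_one] at h1
    exact right_ne_zero_of_mul_eq_one h1
  · have o : IsOpen (chartAt C2 x '' (G.W x ∩ G.W p ∩ G.W q)) :=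
      (chartAt C2 x).isOpen_image_of_subset_source
        (((G.W_open x).inter (G.W_open p)).inter (G.W_open q)) fun y hy => G.W_sub x hy.1.1
    filter_upwards [o.mem_nhds ⟨x, ⟨⟨G.W_mem x, hx⟩, hq⟩, rfl⟩, h.ratio_sm ⟨hx, hq⟩] with z hz hr
    have hg := fun i j => (G.g_sm x p q i j).contDiffAt (o.mem_nhds hz)
    refine ((hr.pow 4).mul ((((hg 0 0).mul (hg 1 1)).sub ((hg 0 1).mul (hg 1 0))).pow
      2)).congr_of_eventuallyEq ?_
    filter_upwards [o.mem_nhds hz] with y hy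
    obtain ⟨x', hx', rfl⟩ := hy
    have e := (chartAt C2 x).left_inv (G.W_sub x hx'.1.1)
    simp only [Function.comp_apply, e]
    rw [h.dw_div ⟨hx'.1.2, hx'.2⟩, det_fin_two]
    rfl

theorem sw1_bil {B : C2 → C2 →L[ℝ] ℂ} (hB : ∀ v, DifferentiableAt ℝ (fun y => B y v) z)
    (v v' : C2) : extD B z v v' =
      ∑ a, ∑ b, (co v a : ℂ) * (co v' b : ℂ) * extD B z (bs a) (bs b) := by
  have h1 : ∀ s t : C2, fderiv ℝ (fun y => B y s) z t =
      ∑ a, ∑ b, (co s a : ℂ) * (co t b : ℂ) * fderiv ℝ (fun y => B y (bs a)) z (bs b) := by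
    intro s t
    have e : (fun y => B y s) = fun y => ∑ a, co s a • B y (bs a) := by
      funext y
      conv_lhs => rw [← co_sum s]
      simp only [map_sum, map_smul]
    rw [e, fderiv_fun_sum fun a _ => (hB (bs a)).fun_const_smul (co s a),
      ContinuousLinearMap.sum_apply]
    refine Finset.sum_congr rfl fun a _ => ?_
    rw [fderiv_fun_const_smul (hB (bs a)), ContinuousLinearMap.smul_apply]
    conv_lhs => rw [← co_sum t]
    simp only [map_sum, map_smul, Finset.smul_sum, real_smul, mul_assoc]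
  rw [extD, h1 v' v, h1 v v', Finset.sum_comm]
  simp only [extD, mul_sub, Finset.sum_sub_distrib]
  congr 1
  exact Finset.sum_congr rfl fun a _ => Finset.sum_congr rfl fun b _ => by ring

theorem sw1_det (M : Fin 4 → Fin 4 → ℝ) : (Matrix.of M).det =
    M 0 0 * (M 1 1 * M 2 2 * M 3 3 - M 1 1 * M 2 3 * M 3 2 - M 1 2 * M 2 1 * M 3 3 +
      M 1 2 * M 2 3 * M 3 1 + M 1 3 * M 2 1 * M 3 2 - M 1 3 * M 2 2 * M 3 1) -
    M 0 1 * (M 1 0 * M 2 2 * M 3 3 - M 1 0 * M 2 3 * M 3 2 - M 1 2 * M 2 0 * M 3 3 +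
      M 1 2 * M 2 3 * M 3 0 + M 1 3 * M 2 0 * M 3 2 - M 1 3 * M 2 2 * M 3 0) +
    M 0 2 * (M 1 0 * M 2 1 * M 3 3 - M 1 0 * M 2 3 * M 3 1 - M 1 1 * M 2 0 * M 3 3 +
      M 1 1 * M 2 3 * M 3 0 + M 1 3 * M 2 0 * M 3 1 - M 1 3 * M 2 1 * M 3 0) -
    M 0 3 * (M 1 0 * M 2 1 * M 3 2 - M 1 0 * M 2 2 * M 3 1 - M 1 1 * M 2 0 * M 3 2 +
      M 1 1 * M 2 2 * M 3 0 + M 1 2 * M 2 0 * M 3 1 - M 1 2 * M 2 1 * M 3 0) := by
  rw [det_succ_row_zero, Fin.sum_univ_four]
  simp only [det_fin_three, submatrix_apply, of_apply]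
  simp [Fin.succAbove]
  ring

theorem sw1_wedge (M : Fin 4 → Fin 4 → ℝ) {F : Fin 4 → Fin 4 → ℂ} (h : ∀ a b, F a b = -F b a)
    (c : ℂ) : wedge (fun j k => c * ∑ a, ∑ b, (M j a : ℂ) * (M k b : ℂ) * F a b)
      (fun j k => c * ∑ a, ∑ b, (M j a : ℂ) * (M k b : ℂ) * F a b) =
      c ^ 2 * ((Matrix.of M).det : ℝ) * wedge F F := by
  have h0 : ∀ a, F a a = 0 := fun a => by linear_combination (1 / 2 : ℂ) * h a a
  rw [sw1_det]
  simp only [wedge, Fin.sum_univ_four, h0, h 1 0, h 2 0, h 3 0, h 2 1, h 3 1, h 3 2]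
  push_cast
  ring

theorem Met.Ln.dens_pt (h : G.Ln u l) (hθ : G.Cn (G.dw u l) θ) (hz : z ∈ G.V p) :
    (8 * h.S4.dens (G.A4 θ) G.om p z + G.S16.dens G.A16 G.om p z) * G.S16.rho p z =
      (16 * Real.pi ^ 2 : ℂ)⁻¹ *
        wedge (curv (chartAt C2 p) θ z) (curv (chartAt C2 p) θ z) := by
  have hR : Riem (Rm4 (G.e p) (G.om p) z) :=
    ⟨Rm4_skew _ _ _, G.isLC16.Rm4_skew hz, G.isLC16.bianchi hz⟩
  have ha : ∀ v v', extD (inChart (chartAt C2 p) (θ p)) z v v' =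
      -extD (inChart (chartAt C2 p) (θ p)) z v' v := fun v v' => by
    simp only [extD]
    ring
  have h6 : ∀ v, DifferentiableAt ℝ (fun y => inChart (chartAt C2 p) (θ p) y v) z := fun v =>
    ((hθ.sm p v).contDiffAt (sw1_open G p hz)).differentiableAt (by simp)
  have h1 := dens_alg hR (F := fun j k =>
    -(1 / 4) * extD (inChart (chartAt C2 p) (θ p)) z (G.e p j z) (G.e p k z)) fun j k => by
      rw [ha]
      ring
  have e4 : h.S4.dens (G.A4 θ) G.om p z = dn cl4 fun j k => h.S4.Om (G.A4 θ) G.om p j k z := rfl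
  have e16 : G.S16.dens G.A16 G.om p z = dn cl16 fun j k => G.S16.Om G.A16 G.om p j k z := rfl
  have e1 : curv (chartAt C2 p) θ z =
      fun a b => extD (inChart (chartAt C2 p) (θ p)) z (bs a) (bs b) :=
    funext fun a => funext fun b => hθ.curv_eq (sw1_hw h) hz a b
  have e2 : G.S16.rho p z = ((Matrix.of fun a b => co (G.e p a z) b).det)⁻¹ := rfl
  have h2 : (0 : ℝ) < (Matrix.of fun a b => co (G.e p a z) b).det := G.e_pos p z hz
  have h3 : (((Matrix.of fun a b => co (G.e p a z) b).det : ℝ) : ℂ) ≠ 0 := ofReal_ne_zero.2 h2.ne'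
  have hp : (Real.pi : ℂ) ≠ 0 := ofReal_ne_zero.2 Real.pi_ne_zero
  simp only [e4, e16, h.Om4 hθ hz, Met.Om16 hz]
  rw [h1, e1, e2]
  simp only [fun j k => sw1_bil h6 (G.e p j z) (G.e p k z)]
  rw [sw1_wedge (fun a b => co (G.e p a z) b) fun a b => ha (bs a) (bs b), ofReal_inv]
  field_simp
  ring

end Vale.Agent.P267I
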