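import Vale.Agent.P267I.SM5
import Vale.Agent.P267I.SO
import Vale.Agent.P267L.LT3
import Vale.Agent.P267B.BF
import Vale.Agent.P267I.Forms2

/-! The two Dirac systems. -/

open scoped Manifold ContDiff Topology Kronecker
open Filter Matrix MeasureTheory Complex

noncomputable section

namespace Vale.Agent.P267I

open Vale.Agent.P267F

variable {X : Type} [TopologicalSpace X] [ChartedSpace C2 X] [IsManifold 𝓘(ℂ, C2) ω X]
  [T2Space X] [CompactSpace X] [MeasurableSpace X] [BorelSpace X] {G : Met X}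
  {u l w : X → X → ℂ} {θ : X → X → C2 →L[ℝ] ℂ} {p q x : X} {N : ℕ} {S : Pre X N}
  {A : X → Fin 4 → C2 → Mat N} {om : X → Fin 4 → Fin 4 → Fin 4 → C2 → ℝ} {z : C2}

set_option linter.unusedSectionVars false

/-- Connections adapted to the cover. -/
def sw2_C (G : Met X) (w : X → X → ℂ) (θ : X → X → C2 →L[ℝ] ℂ) : Prop :=
  (∀ p v, ContDiffOn ℝ ∞ (fun z => inChart (chartAt C2 p) (θ p) z v) (G.V p)) ∧
    ∀ p q, ∀ x ∈ G.W p ∩ G.W q, θ p x - θ q x = P267.LT3_dl (w p / w q) x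

/-- Bundles adapted to the cover. -/
def sw2_B (G : Met X) (w : X → X → ℂ) : Prop :=
  ∀ p, ∀ x ∈ G.W p, w p x ≠ 0 ∧ ∀ q, x ∈ G.W q → SmAt (w p / w q) x

theorem sw2_open (G : Met X) (p : X) : IsOpen (G.V p) :=
  (chartAt C2 p).isOpen_image_of_subset_source (G.W_open p) (G.W_sub p)

theorem sw2_mem (hz : z ∈ G.V p) : z ∈ (chartAt C2 p).target ∧ (chartAt C2 p).symm z ∈ G.W p := by
  obtain ⟨x, hx, rfl⟩ := hz
  rw [(chartAt C2 p).left_inv (G.W_sub p hx)]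
  exact ⟨(chartAt C2 p).map_source (G.W_sub p hx), hx⟩

theorem sw2_ev (hx : x ∈ G.W p ∩ G.W q) : ∀ᶠ y in 𝓝 x, y ∈ G.W p ∩ G.W q :=
  ((G.W_open p).inter (G.W_open q)).mem_nhds hx

theorem sw2_conn (h : sw2_C G w θ) : IsConnection w θ := by
  refine ⟨fun p v => ?_, fun p => ?_⟩
  · filter_upwards [(sw2_open G p).mem_nhds ⟨p, G.W_mem p, rfl⟩] with z hz
    exact (h.1 p v).contDiffAt ((sw2_open G p).mem_nhds hz)
  · filter_upwards [(G.W_open p).mem_nhds (G.W_mem p)] with q hq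
    filter_upwards [sw2_ev (G := G) ⟨hq, G.W_mem q⟩] with x hx
    exact h.2 p q x hx

theorem sw2_dl {f : X → ℂ} (hz : z ∈ (chartAt C2 p).target) (hf : SmAt f ((chartAt C2 p).symm z))
    (h0 : f ((chartAt C2 p).symm z) ≠ 0) :
    (∀ v, ContDiffAt ℝ ∞ (fun y => inChart (chartAt C2 p) (P267.LT3_dl f) y v) z) ∧
      ∀ v w, extD (inChart (chartAt C2 p) (P267.LT3_dl f)) z v w = 0 := by
  have h1 := P267.LT3_in (P267.isCh_chartAt p) hz hf
  have h2 := ((smAt_iff ((chartAt C2 p).map_target hz)).1 hf).self_of_nhds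
  rw [(chartAt C2 p).right_inv hz] at h2
  refine ⟨fun v => (P267.LT3_cd h2 h0 v).congr_of_eventuallyEq ?_, fun v w =>
    (P267.extD_congr h1 v w).trans (P267.extD_dlog h2 h0 v w)⟩
  filter_upwards [h1] with y hy
  exact congrArg (fun L : C2 →L[ℝ] ℂ => L v) hy

theorem sw2_curv (h : sw2_C G w θ) (hw : sw2_B G w) (hz : z ∈ G.V p) (j k : Fin 4) :
    curv (chartAt C2 p) θ z j k = extD (inChart (chartAt C2 p) (θ p)) z (bs j) (bs k) := by
  obtain ⟨h1, h2⟩ := sw2_mem hz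
  have h3 := hw _ _ (G.W_mem ((chartAt C2 p).symm z))
  obtain ⟨h4, h5⟩ := sw2_dl h1 (h3.2 p h2) (div_ne_zero h3.1 (hw p _ h2).1)
  have h6 : inChart (chartAt C2 p) (θ ((chartAt C2 p).symm z)) =ᶠ[𝓝 z]
      inChart (chartAt C2 p) (θ p) +
        inChart (chartAt C2 p) (P267.LT3_dl (w ((chartAt C2 p).symm z) / w p)) := by
    filter_upwards [((chartAt C2 p).continuousAt_symm h1).tendsto.eventually
      (sw2_ev (G := G) ⟨G.W_mem _, h2⟩)] with y hy
    rw [Pi.add_apply, inChart, inChart, inChart, ← ContinuousLinearMap.add_comp,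
      eq_add_of_sub_eq' (h.2 _ _ _ hy)]
  refine (P267.extD_congr h6 _ _).trans ((P267.extD_add (fun v =>
    ((h.1 p v).contDiffAt ((sw2_open G p).mem_nhds hz)).differentiableAt (by simp))
    (fun v => (h4 v).differentiableAt (by simp)) _ _).trans ?_)
  exact (congrArg (_ + ·) (h5 _ _)).trans (add_zero _)

theorem sw2_cont (h : sw2_C G w θ) (hw : sw2_B G w) (p : X) (j k : Fin 4) :
    ContinuousOn (fun z => curv (chartAt C2 p) θ z j k) (G.V p) := by
  have hc : ∀ v v', ContinuousOn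
      (fun z => fderiv ℝ (fun y => inChart (chartAt C2 p) (θ p) y v') z v) (G.V p) := fun v v' =>
    ((h.1 p v').continuousOn_fderiv_of_isOpen (sw2_open G p) (by simp)).clm_apply
      continuousOn_const
  exact ((hc (bs j) (bs k)).sub (hc (bs k) (bs j))).congr fun z hz => sw2_curv h hw hz j k

theorem sw2_ne (hp : x ∈ (chartAt C2 p).source) (hq : x ∈ (chartAt C2 q).source) :
    (jac p q x).det * (jac q p x).det = 1 := by
  rw [← det_mul, jac_mul hp hq hp, jac_self hp, det_one]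

theorem sw2_K (hp : x ∈ (chartAt C2 p).source) (hq : x ∈ (chartAt C2 q).source) :
    (canon X p / canon X q) x = (jac q p x).det := by
  have hx := mem_chart_source C2 x
  rw [Pi.div_apply, canon_jac, canon_jac, ← jac_mul hx hq hp, det_mul,
    mul_div_cancel_left₀ _ (left_ne_zero_of_mul_eq_one (sw2_ne hx hq))]

theorem sw2_BK (G : Met X) : sw2_B G (canon X) := by
  intro p x hp
  refine ⟨?_, fun q hq => ?_⟩
  · rw [canon_jac]
    exact left_ne_zero_of_mul_eq_one (sw2_ne (mem_chart_source C2 x) (G.W_sub p hp))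
  · refine P267.SmAt.congr (f := fun y => (jac q p y).det) ?_
      ((sw2_ev (G := G) ⟨hp, hq⟩).mono fun y hy => (sw2_K (G.W_sub p hy.1) (G.W_sub q hy.2)).symm)
    have hx := mem_chart_source C2 x
    filter_upwards [(chartAt C2 x).open_target.mem_nhds ((chartAt C2 x).map_source hx),
      ((chartAt C2 x).tendsto_symm hx).eventually (sw2_ev (G := G) ⟨hp, hq⟩)] with z h1 h2
    have h3 := fun i j => jac_sm (G.W_sub q h2.2) (G.W_sub p h2.1) ((chartAt C2 x).map_target h1) i j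
    rw [(chartAt C2 x).right_inv h1] at h3
    simp only [Function.comp_def, det_fin_two]
    exact ((h3 0 0).mul (h3 1 1)).sub ((h3 0 1).mul (h3 1 0))

theorem sw2_Bu (h : G.Ln u l) : sw2_B G u := by
  intro p x hp
  refine ⟨(h.ne p x hp).2, fun q hq => ?_⟩
  refine P267.SmAt.congr (P267.HolAt.smAt (P267.HolAt.div (h.hol p x hp) (h.hol q x hq)
    (div_ne_zero (h.ne q x hq).2 (h.ne x x (G.W_mem x)).2))) ?_
  filter_upwards [(G.W_open x).mem_nhds (G.W_mem x)] with y hy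
  exact div_div_div_cancel_right₀ (h.ne x y hy).2 _ _

/-- The change of frame. -/
def sw2_m (G : Met X) (l : X → X → ℂ) (p x : X) : ℂ :=
  l p x ^ 4 / (G.E p (chartAt C2 p x)).det ^ 2

theorem sw2_msm (h : G.Ln u l) (hp : x ∈ G.W p) : sw2_m G l p x ≠ 0 ∧ SmAt (sw2_m G l p) x := by
  have h1 := pow_ne_zero 2 (G.E_det p _ ⟨x, hp, rfl⟩)
  refine ⟨div_ne_zero (pow_ne_zero _ (h.ne p x hp).1) h1, P267.SmAt.div (P267.SmAt.pow (h.sm p x hp) 4)
    (P267.SmAt.pow (f := fun y => (G.E p (chartAt C2 p y)).det) ?_ 2) h1⟩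
  refine (smAt_iff (G.W_sub p hp)).2 ?_
  filter_upwards [(sw2_open G p).mem_nhds ⟨x, hp, rfl⟩] with z hz
  have h3 := fun i j => (G.E_sm p i j).contDiffAt ((sw2_open G p).mem_nhds hz)
  refine (((h3 0 0).mul (h3 1 1)).sub ((h3 0 1).mul (h3 1 0))).congr_of_eventuallyEq ?_
  filter_upwards [(sw2_open G p).mem_nhds hz] with y hy
  simp only [Function.comp_apply, (chartAt C2 p).right_inv (sw2_mem hy).1, det_fin_two]

theorem sw2_id (h : G.Ln u l) (hx : x ∈ G.W p ∩ G.W q) : (G.dw u l p / G.dw u l q) x =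
    ((u p / u q) ^ 4 * sw2_m G l p / ((canon X p / canon X q) ^ 2 * sw2_m G l q)) x := by
  have a1 := G.E_det p _ ⟨x, hx.1, rfl⟩
  have a2 := G.E_det q _ ⟨x, hx.2, rfl⟩
  have a3 := h.ne q x hx.2
  have a4 := sw2_ne (G.W_sub q hx.2) (G.W_sub p hx.1)
  have a5 := left_ne_zero_of_mul_eq_one a4
  rw [h.dw_div hx, Pi.div_apply, Pi.mul_apply, Pi.mul_apply, Pi.pow_apply, Pi.pow_apply,
    sw2_K (G.W_sub p hx.1) (G.W_sub q hx.2), Pi.div_apply, Met.g, gt0, det_mul, det_mul,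
    det_nonsing_inv, Ring.inverse_eq_inv', eq_inv_of_mul_eq_one_right a4, sw2_m, sw2_m]
  have := a3.1
  have := a3.2
  field_simp

theorem sw2_Bd (h : G.Ln u l) : sw2_B G (G.dw u l) := by
  intro p x hp
  refine ⟨?_, fun q hq => ?_⟩
  · have := congrArg det (h.U_unit p x)
    rw [det_mul, det_one] at this
    exact right_ne_zero_of_mul_eq_one this
  · refine P267.SmAt.congr (P267.SmAt.div
      (P267.SmAt.mul (P267.SmAt.pow ((sw2_Bu h p x hp).2 q hq) 4) (sw2_msm h hp).2)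
      (P267.SmAt.mul (P267.SmAt.pow ((sw2_BK G p x hp).2 q hq) 2) (sw2_msm h hq).2) ?_)
      ((sw2_ev (G := G) ⟨hp, hq⟩).mono fun y hy => (sw2_id h hy).symm)
    exact mul_ne_zero (pow_ne_zero _ (div_ne_zero (sw2_BK G p x hp).1 (sw2_BK G q x hq).1))
      (sw2_msm h hq).1

theorem sw2_law (h : G.Ln u l) (hx : x ∈ G.W p ∩ G.W q) :
    P267.LT3_dl (G.dw u l p / G.dw u l q) x + (2 : ℂ) • P267.LT3_dl (canon X p / canon X q) x +
      P267.LT3_dl (sw2_m G l q) x =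
      (4 : ℂ) • P267.LT3_dl (u p / u q) x + P267.LT3_dl (sw2_m G l p) x := by
  have d1 := (sw2_Bd h p x hx.1).2 q hx.2
  have d0 : (G.dw u l p / G.dw u l q) x ≠ 0 :=
    div_ne_zero (sw2_Bd h p x hx.1).1 (sw2_Bd h q x hx.2).1
  have c1 := (sw2_BK G p x hx.1).2 q hx.2
  have c0 : ∀ y ∈ G.W p ∩ G.W q, (canon X p / canon X q) y ≠ 0 := fun y hy =>
    div_ne_zero (sw2_BK G p y hy.1).1 (sw2_BK G q y hy.2).1
  have a1 := (sw2_Bu h p x hx.1).2 q hx.2
  have a0 : (u p / u q) x ≠ 0 := div_ne_zero (h.ne p x hx.1).2 (h.ne q x hx.2).2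
  obtain ⟨p0, p1⟩ := sw2_msm h hx.1
  obtain ⟨q0, q1⟩ := sw2_msm h hx.2
  have e : (G.dw u l p / G.dw u l q) * ((canon X p / canon X q) * ((canon X p / canon X q) *
      sw2_m G l q)) =ᶠ[𝓝 x]
      (u p / u q) * ((u p / u q) * ((u p / u q) * ((u p / u q) * sw2_m G l p))) := by
    filter_upwards [sw2_ev (G := G) hx] with y hy
    have b1 := c0 y hy
    have b2 := (sw2_msm h hy.2).1
    rw [Pi.mul_apply, sw2_id h hy, Pi.div_apply]
    simp only [Pi.mul_apply, Pi.pow_apply]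
    field_simp
  have e2 := P267.LT3_congr e
  have c0 := c0 x hx
  generalize G.dw u l p / G.dw u l q = d, canon X p / canon X q = c, u p / u q = a,
    sw2_m G l p = m, sw2_m G l q = m' at *
  rw [P267.LT3_mul d1 (P267.SmAt.mul c1 (P267.SmAt.mul c1 q1)) d0
      (mul_ne_zero c0 (mul_ne_zero c0 q0)),
    P267.LT3_mul c1 (P267.SmAt.mul c1 q1) c0 (mul_ne_zero c0 q0), P267.LT3_mul c1 q1 c0 q0,
    P267.LT3_mul a1 (P267.SmAt.mul a1 (P267.SmAt.mul a1 (P267.SmAt.mul a1 p1))) a0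
      (mul_ne_zero a0 (mul_ne_zero a0 (mul_ne_zero a0 p0))),
    P267.LT3_mul a1 (P267.SmAt.mul a1 (P267.SmAt.mul a1 p1)) a0
      (mul_ne_zero a0 (mul_ne_zero a0 p0)),
    P267.LT3_mul a1 (P267.SmAt.mul a1 p1) a0 (mul_ne_zero a0 p0),
    P267.LT3_mul a1 p1 a0 p0] at e2
  linear_combination (norm := module) e2

theorem sw2_U (h : G.Ln u l) (hθ : sw2_C G (G.dw u l) θ) {κ : X → X → C2 →L[ℝ] ℂ}
    (hκ : sw2_C G (canon X) κ) : ∃ η, sw2_C G u η ∧ ∀ p, ∀ z ∈ G.V p, ∀ j k,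
      curv (chartAt C2 p) θ z j k =
        4 * curv (chartAt C2 p) η z j k - 2 * curv (chartAt C2 p) κ z j k := by
  obtain ⟨η, hη⟩ : ∃ η : X → X → C2 →L[ℝ] ℂ, ∀ p x, η p x =
      (4 : ℂ)⁻¹ • (θ p x + (2 : ℂ) • κ p x - P267.LT3_dl (sw2_m G l p) x) := ⟨_, fun _ _ => rfl⟩
  have e : ∀ p v, (fun y => inChart (chartAt C2 p) (η p) y v) = fun y =>
      (4 : ℂ)⁻¹ • (inChart (chartAt C2 p) (θ p) y v + (2 : ℂ) • inChart (chartAt C2 p) (κ p) y v -
        inChart (chartAt C2 p) (P267.LT3_dl (sw2_m G l p)) y v) := fun p v => by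
    funext y
    simp only [inChart, hη]
    rfl
  have hm := fun p z (hz : z ∈ G.V p) => sw2_dl (sw2_mem hz).1 (sw2_msm h (sw2_mem hz).2).2
    (sw2_msm h (sw2_mem hz).2).1
  have hC : sw2_C G u η := by
    refine ⟨fun p v => ?_, fun p q x hx => ?_⟩
    · rw [e]
      exact (((hθ.1 p v).add ((hκ.1 p v).const_smul _)).sub
        fun z hz => ((hm p z hz).1 v).contDiffWithinAt).const_smul _
    · rw [hη, hη]
      linear_combination (norm := module) (4 : ℂ)⁻¹ • hθ.2 p q x hx +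
        (2 : ℂ)⁻¹ • hκ.2 p q x hx + (4 : ℂ)⁻¹ • sw2_law h hx
  refine ⟨η, hC, fun p z hz j k => ?_⟩
  have hn := (sw2_open G p).mem_nhds hz
  have f : ∀ v, fderiv ℝ (fun y => inChart (chartAt C2 p) (η p) y v) z =
      (4 : ℂ)⁻¹ • (fderiv ℝ (fun y => inChart (chartAt C2 p) (θ p) y v) z +
        (2 : ℂ) • fderiv ℝ (fun y => inChart (chartAt C2 p) (κ p) y v) z -
        fderiv ℝ (fun y => inChart (chartAt C2 p) (P267.LT3_dl (sw2_m G l p)) y v) z) := fun v => by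
    rw [e]
    exact ((((((hθ.1 p v).contDiffAt hn).differentiableAt (by simp)).hasFDerivAt.add
      ((((hκ.1 p v).contDiffAt hn).differentiableAt (by simp)).hasFDerivAt.const_smul (2 : ℂ))).sub
      (((hm p z hz).1 v).differentiableAt (by simp)).hasFDerivAt).const_smul (4 : ℂ)⁻¹).fderiv
  have g := (hm p z hz).2 (bs j) (bs k)
  rw [sw2_curv hθ (sw2_Bd h) hz, sw2_curv hC (sw2_Bu h) hz, sw2_curv hκ (sw2_BK G) hz]
  simp only [extD, f, _root_.smul_apply, _root_.sub_apply, _root_.add_apply, smul_eq_mul] at g ⊢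
  linear_combination g

theorem sw2_int {w' : X → X → ℂ} {θ' : X → X → C2 →L[ℝ] ℂ} (h : sw2_C G w θ) (hw : sw2_B G w)
    (h' : sw2_C G w' θ') (hw' : sw2_B G w') {d : ℂ} (hd : InterC w w' d) {n : ℕ}
    {p : Fin n → X} {ψ : Fin n → X → ℝ} (c1 : ∀ i, Continuous (ψ i))
    (c2 : ∀ i, tsupport (ψ i) ⊆ G.W (p i)) (c3 : ∀ x, ∑ i, ψ i x = 1) :
    (∀ i, IntegrableOn (fun z => (ψ i ((chartAt C2 (p i)).symm z) : ℂ) *
      wedge (curv (chartAt C2 (p i)) θ z) (curv (chartAt C2 (p i)) θ' z)) (G.V (p i))) ∧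
    ∑ i, ∫ z in G.V (p i), (ψ i ((chartAt C2 (p i)).symm z) : ℂ) *
      wedge (curv (chartAt C2 (p i)) θ z) (curv (chartAt C2 (p i)) θ' z) =
      -(4 * Real.pi ^ 2 : ℂ) * d := by
  refine ⟨fun i => ?_, ?_⟩
  · have a := sw2_cont h hw (p i)
    have b := sw2_cont h' hw' (p i)
    exact Pre.int_on (G.pre cl4 (fun _ _ => 1) (by simp) (by simp) fun _ _ _ _ => contDiffOn_const)
      (c1 i) (c2 i) (((((((a 0 1).mul (b 2 3)).sub ((a 0 2).mul (b 1 3))).add
        ((a 0 3).mul (b 1 2))).add ((a 1 2).mul (b 0 3))).sub ((a 1 3).mul (b 0 2))).add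
        ((a 2 3).mul (b 0 1)))
  · have e := hd θ θ' n (fun i => chartAt C2 (p i)) ψ (sw2_conn h) (sw2_conn h')
      (fun i => (P267.isCh_chartAt (p i)).hol) c1 (fun i => (c2 i).trans (G.W_sub _)) c3
    have hπ : (4 * Real.pi ^ 2 : ℂ) ≠ 0 :=
      mul_ne_zero (by norm_num) (pow_ne_zero _ (ofReal_ne_zero.2 Real.pi_ne_zero))
    rw [← e, ← mul_assoc, neg_mul_neg, mul_inv_cancel₀ hπ, one_mul]
    refine Finset.sum_congr rfl fun i _ => (setIntegral_eq_of_subset_of_forall_sdiff_eq_zero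
      (chartAt C2 (p i)).open_target.measurableSet (fun z hz => (sw2_mem hz).1) fun z hz => ?_).symm
    rw [image_eq_zero_of_notMem_tsupport fun k => hz.2
      ⟨_, c2 i k, (chartAt C2 (p i)).right_inv hz.1⟩, ofReal_zero, zero_mul]

theorem Met.Ln.cw (h : G.Ln u l) (hu : IsBundle HolAt u) (hθ : G.Cn (G.dw u l) θ) {a b k : ℂ}
    (h1 : InterC u u a) (h2 : InterC u (canon X) b) (h3 : InterC (canon X) (canon X) k) {n : ℕ}
    {p : Fin n → X} {ψ : Fin n → X → ℝ} (c1 : ∀ i, Continuous (ψ i))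
    (c2 : ∀ i, tsupport (ψ i) ⊆ G.W (p i)) (c3 : ∀ x, ∑ i, ψ i x = 1) :
    ∑ i, ∫ z in G.V (p i), (ψ i ((chartAt C2 (p i)).symm z) : ℂ) *
      wedge (curv (chartAt C2 (p i)) θ z) (curv (chartAt C2 (p i)) θ z) =
      -(16 * Real.pi ^ 2 : ℂ) * (4 * (a - b) + k) := by
  have _ := hu
  have hθ' : sw2_C G (G.dw u l) θ := ⟨hθ.sm, hθ.law⟩
  obtain ⟨κ, k1, k2, -⟩ := G.exists_cn (sw2_BK G)
  have hκ : sw2_C G (canon X) κ := ⟨k1, k2⟩
  obtain ⟨η, hη, e⟩ := sw2_U h hθ' hκ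
  obtain ⟨i1, j1⟩ := sw2_int hη (sw2_Bu h) hη (sw2_Bu h) h1 c1 c2 c3
  obtain ⟨i2, j2⟩ := sw2_int hη (sw2_Bu h) hκ (sw2_BK G) h2 c1 c2 c3
  obtain ⟨i3, j3⟩ := sw2_int hκ (sw2_BK G) hκ (sw2_BK G) h3 c1 c2 c3
  have f : ∀ i, ∫ z in G.V (p i), (ψ i ((chartAt C2 (p i)).symm z) : ℂ) *
      wedge (curv (chartAt C2 (p i)) θ z) (curv (chartAt C2 (p i)) θ z) = _ := fun i =>
    (setIntegral_congr_fun (sw2_open G (p i)).measurableSet fun z hz => by
      simp only [wedge, e _ z hz, Pi.sub_apply]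
      ring).trans ((integral_add (((i1 i).const_mul 16).sub ((i2 i).const_mul 16))
        ((i3 i).const_mul 4)).trans (congrArg (· + _)
          (integral_sub ((i1 i).const_mul 16) ((i2 i).const_mul 16))))
  simp only [f, integral_const_mul, Finset.sum_add_distrib, Finset.sum_sub_distrib,
    ← Finset.mul_sum, j1, j2, j3]
  ring

theorem Met.Ln.cwZ (h : G.Ln u l) (hu : IsBundle HolAt u) (hθ : G.Cn (G.dw u l) θ) {a b k : ℤ}
    (h1 : Inter u u a) (h2 : Inter u (canon X) b) (h3 : Inter (canon X) (canon X) k) {n : ℕ}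
    {p : Fin n → X} {ψ : Fin n → X → ℝ} (c1 : ∀ i, Continuous (ψ i))
    (c2 : ∀ i, tsupport (ψ i) ⊆ G.W (p i)) (c3 : ∀ x, ∑ i, ψ i x = 1) :
    ∑ i, ∫ z in G.V (p i), (ψ i ((chartAt C2 (p i)).symm z) : ℂ) *
      wedge (curv (chartAt C2 (p i)) θ z) (curv (chartAt C2 (p i)) θ z) =
      -(16 * Real.pi ^ 2 : ℂ) * ((4 * (a - b) + k : ℤ) : ℂ) := by
  rw [h.cw hu hθ (interC_int.2 h1) (interC_int.2 h2) (interC_int.2 h3) c1 c2 c3]
  push_cast
  ring

end Vale.Agent.P267I
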