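import Vale.Agent.P267I.Symm
import Vale.Agent.P267I.SG

/-! The two Dirac systems. -/

open scoped Manifold ContDiff Topology Kronecker
open Filter Matrix MeasureTheory Complex

noncomputable section

namespace Vale.Agent.P267I

open Vale.Agent.P267F

variable {X : Type} [TopologicalSpace X] [ChartedSpace C2 X] [IsManifold 𝓘(ℂ, C2) ω X]
  [T2Space X] [CompactSpace X] [MeasurableSpace X] [BorelSpace X] {G : Met X}
  {u l w : X → X → ℂ} {θ : X → X → C2 →L[ℝ] ℂ} {p q x : X} {N : ℕ} {S : Pre X N}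
  {A : X → Fin 4 → C2 → Mat N} {om : X → Fin 4 → Fin 4 → Fin 4 → C2 → ℝ} {z : C2}

section

open Set

set_option linter.unusedSectionVars false

theorem sy2_pu (S : Pre X N) : ∃ (m : ℕ) (c : Fin m → X) (ψ : Fin m → X → ℝ),
    (∀ a, Continuous (ψ a)) ∧ (∀ a, tsupport (ψ a) ⊆ S.W (c a)) ∧ (∀ x, ∑ a, ψ a x = 1) ∧
    (∀ a x, 0 ≤ ψ a x) ∧ ∀ a p, ContDiffOn ℝ ∞ (fun z => (ψ a ((chartAt C2 p).symm z) : ℂ))
      (chartAt C2 p).target := by
  obtain ⟨m, c, ψ, h1, h2, h3, h4, h5⟩ := exists_pou S.W_open S.W_mem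
  refine ⟨m, c, ψ, h2, h4, h5, h3, fun a p z hz => ?_⟩
  have := ((smAt_iff ((chartAt C2 p).map_target hz)).1 (h1 a _)).self_of_nhds
  rw [(chartAt C2 p).right_inv hz] at this
  exact this.contDiffWithinAt

theorem sy2_int (S : Pre X N) {f : X → ℂ} (hf : Continuous f) : Integrable f S.μ := by
  obtain ⟨m, c, ψ, h1, h2, h3, -, -⟩ := sy2_pu S
  have : f = fun x => ∑ a, (ψ a x : ℂ) * f x := funext fun x => by
    rw [← Finset.sum_mul, ← Complex.ofReal_sum, h3, Complex.ofReal_one, one_mul]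
  rw [this]
  refine integrable_finsetSum _ fun a _ => Sy_int0 S (c a)
    ((Complex.continuous_ofReal.comp (h1 a)).mul hf) ((closure_mono fun x hx => ?_).trans (h2 a))
  exact fun h => hx (by simp [h])

theorem sy2_dot (S : Pre X N) (p x : X) (a b : Vec N) :
    star (S.U p x *ᵥ a) ⬝ᵥ (S.U p x *ᵥ b) = star a ⬝ᵥ b := by
  rw [star_mulVec, dotProduct_mulVec, vecMul_vecMul, S.U_unit, vecMul_one]

theorem sy2_cont (S : Pre X N) {s t : X → Vec N} (hs : ∀ p, ContinuousOn (S.loc p s) (S.V p))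
    (ht : ∀ p, ContinuousOn (S.loc p t) (S.V p)) : Continuous fun x => star (s x) ⬝ᵥ t x := by
  refine continuous_iff_continuousAt.2 fun x => ?_
  have hx := S.W_sub x (S.W_mem x)
  have n := (Sy_open S x).mem_nhds ⟨x, S.W_mem x, rfl⟩
  have c1 := ((hs x).continuousAt n).comp ((chartAt C2 x).continuousAt hx)
  have c2 := ((ht x).continuousAt n).comp ((chartAt C2 x).continuousAt hx)
  have c3 : ContinuousAt (fun y => star (S.loc x s (chartAt C2 x y)) ⬝ᵥ
      S.loc x t (chartAt C2 x y)) x := by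
    simp only [dotProduct]
    exact tendsto_finsetSum _ fun i _ =>
      ((continuous_apply i).continuousAt.comp c1).star.mul ((continuous_apply i).continuousAt.comp c2)
  refine c3.congr (((chartAt C2 x).eventually_left_inverse hx).mono fun y hy => ?_)
  simp only [Pre.loc, hy, sy2_dot]

theorem sy2_loc (hL : S.IsLC A om)
    (hc : ∀ p, ∀ x ∈ S.W p, ∀ s, DifferentiableAt ℝ (S.loc p s) (chartAt C2 p x) →
      S.U p x *ᵥ S.D (S.BofA A) s x = S.Dloc (S.BofA A) p (S.loc p s) (chartAt C2 p x))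
    {s t : X → Vec N} (hs : S.Sm s) (ht : S.Sm t) {p : X} {K : Set X} (hK : IsClosed K)
    (h : K ⊆ S.W p) (h0 : ∀ x ∉ K, s x = 0) :
    S.ip (S.D (S.BofA A) s) t = S.ip s (S.D (S.BofA A) t) := by
  have d1 := Sy_D (Sy_B hL) hc hs
  have d2 := Sy_D (Sy_B hL) hc ht
  have c1 := sy2_cont S (fun p => (d1 p).2) fun p => (ht p).continuousOn
  have c2 := sy2_cont S (fun p => (hs p).continuousOn) fun p => (d2 p).2
  have z1 : ∀ x ∉ K, S.D (S.BofA A) s x = 0 := fun x hx => by
    have e : S.loc x s =ᶠ[𝓝 (chartAt C2 x x)] fun _ => 0 :=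
      ((chartAt C2 x).tendsto_symm (mem_chart_source C2 x)).eventually
        (hK.isOpen_compl.mem_nhds hx) |>.mono fun y hy => by simp [Pre.loc, h0 _ hy]
    simp [Pre.D, Pre.Dloc, e.fderiv_eq, e.self_of_nhds]
  rw [← sub_eq_zero, Pre.ip, Pre.ip, ← integral_sub (sy2_int S c1) (sy2_int S c2),
    Sy_chart S p (c1.fun_sub c2) fun x hx => by simp [z1 x fun k => hx (h k), h0 x fun k => hx (h k)]]
  have k : ∀ b i, _ := fun b i => Sy_zero (F := fun y => (S.rho p y * co (S.e p b y) i) •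
      (star (S.loc p s y) ⬝ᵥ S.c b *ᵥ S.loc p t y)) (Sy_open S p) (Sy_cpt S hK h) (image_mono h)
    (by
      refine ((Sy_rho S p).mul ?_).smul ?_
      · simp only [Sy_co_eq]
        exact (Sy_co i).contDiff.comp_contDiffOn (S.e_sm p b)
      · simp only [dotProduct, mulVec]
        exact ContDiffOn.sum fun i _ => (Complex.conjCLE.contDiff.comp_contDiffOn
          (contDiffOn_pi.1 (hs p) i)).mul
          (ContDiffOn.sum fun j _ => contDiffOn_const.mul (contDiffOn_pi.1 (ht p) j)))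
    (fun z hz hk => by
      simp [Pre.loc, h0 _ fun k => hk ⟨_, k, (chartAt C2 p).right_inv (Sy_tgt S p hz)⟩]) (bs i)
  refine (setIntegral_congr_fun (g := fun z => -∑ b, ∑ i, fderiv ℝ (fun y => (S.rho p y *
    co (S.e p b y) i) • (star (S.loc p s y) ⬝ᵥ S.c b *ᵥ S.loc p t y)) z (bs i))
    (Sy_open S p).measurableSet fun z hz => ?_).trans ?_
  · have n := (Sy_open S p).mem_nhds hz
    simp only []
    rw [← Sy_pt hL hz (((hs p).contDiffAt n).differentiableAt (by simp))
      (((ht p).contDiffAt n).differentiableAt (by simp)), ← (d1 p).1 hz, ← (d2 p).1 hz]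
    simp only [Pre.loc, sy2_dot]
  · rw [integral_neg, integral_finsetSum _ fun b _ => integrable_finsetSum _ fun i _ => (k b i).1]
    simp only [integral_finsetSum _ fun i _ => (k _ i).1, (k _ _).2, Finset.sum_const_zero,
      neg_zero]

theorem sy2_symm (hL : S.IsLC A om)
    (hc : ∀ p, ∀ x ∈ S.W p, ∀ s, DifferentiableAt ℝ (S.loc p s) (chartAt C2 p x) →
      S.U p x *ᵥ S.D (S.BofA A) s x = S.Dloc (S.BofA A) p (S.loc p s) (chartAt C2 p x)) :
    S.IsOp (S.BofA A) := by
  refine ⟨Sy_B hL, fun p z hz => Sy_odd hL hz, hc, fun s t hs ht => ?_⟩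
  obtain ⟨m, c, ψ, h1, h2, h3, -, h4⟩ := sy2_pu S
  let r : Fin m → X → Vec N := fun a x => (ψ a x : ℂ) • s x
  have r0 : ∀ a p, S.loc p (r a) = fun z => (ψ a ((chartAt C2 p).symm z) : ℂ) • S.loc p s z :=
    fun a p => funext fun z => by simp only [Pre.loc, r, mulVec_smul]
  have r1 : ∀ a, S.Sm (r a) := fun a p => by
    rw [r0]
    exact ((h4 a p).mono (Sy_tgt S p)).smul (hs p)
  have r2 : ∀ x, s x = ∑ a, r a x := fun x => by
    rw [← Finset.sum_smul, ← Complex.ofReal_sum, h3, Complex.ofReal_one, one_smul]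
  have r3 : ∀ x, S.D (S.BofA A) s x = ∑ a, S.D (S.BofA A) (r a) x := fun x => by
    have e : S.loc x s = fun z => ∑ a, S.loc x (r a) z := funext fun z => by
      simp only [Pre.loc, r2 _, mulVec_sum]
    have n := (Sy_open S x).mem_nhds ⟨x, S.W_mem x, rfl⟩
    simp only [Pre.D, Pre.Dloc, e]
    rw [fderiv_fun_sum fun a _ => ((r1 a x).contDiffAt n).differentiableAt (by simp)]
    simp only [_root_.sum_apply, mulVec_sum, mulVec_add, Finset.sum_add_distrib]
    rw [Finset.sum_comm]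
  have k := fun a => sy2_loc hL hc (r1 a) ht (isClosed_tsupport _) (h2 a) fun x hx => by
    simp [r, image_eq_zero_of_notMem_tsupport hx]
  have d2 := Sy_D (Sy_B hL) hc ht
  simp only [Pre.ip] at k ⊢
  conv_rhs => simp only [r2]
  simp only [r3, star_sum, sum_dotProduct]
  rw [integral_finsetSum _ fun a _ => sy2_int S (sy2_cont S
      (fun p => (Sy_D (Sy_B hL) hc (r1 a) p).2) fun p => (ht p).continuousOn),
    integral_finsetSum _ fun a _ => sy2_int S (sy2_cont S
      (fun p => (r1 a p).continuousOn) fun p => (d2 p).2)]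
  exact Finset.sum_congr rfl fun a _ => k a

end

theorem Pre.IsLC.isOp (h : S.IsLC A om) (hg : S.Gauge A) : S.IsOp (S.BofA A) := by
  exact sy2_symm h hg.compat

end Vale.Agent.P267I
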