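import Vale.Agent.P267I.SM2
import Vale.Agent.P267I.SG4
import Vale.Agent.P267I.SG16
import Vale.Agent.P267I.SY2
import Vale.Agent.P267I.SW1
import Vale.Agent.P267I.SW2

/-! The two Dirac systems. -/

open scoped Manifold ContDiff Topology Kronecker
open Filter Matrix MeasureTheory Complex

noncomputable section

namespace Vale.Agent.P267I

open Vale.Agent.P267F

variable {X : Type} [TopologicalSpace X] [ChartedSpace C2 X] [IsManifold 𝓘(ℂ, C2) ω X]
  [T2Space X] [CompactSpace X] [MeasurableSpace X] [BorelSpace X] {G : Met X}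
  {u v l : X → X → ℂ}

theorem exists_ln2 (hu : IsBundle HolAt u) (hv : IsBundle HolAt v) :
    ∃ (G : Met X) (l l' : X → X → ℂ), G.Ln u l ∧ G.Ln v l' := by
  obtain ⟨M, l, h1, h2⟩ := exists_ln hu
  obtain ⟨M', l', h3, h4⟩ := exists_ln hv
  obtain ⟨G, hG⟩ := exists_met (fun p => M p ∩ M' p) fun p => inter_mem (h1 p) (h3 p)
  exact ⟨G, l, l', h2 G fun p x hx => (hG p hx).1, h4 G fun p x hx => (hG p hx).2⟩

theorem Met.isOp16 (G : Met X) : G.S16.IsOp (G.S16.BofA G.A16) := G.isLC16.isOp G.gauge16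

theorem Met.Ln.index (h : G.Ln u l) (hu : IsBundle HolAt u) {a b k : ℂ} (h1 : InterC u u a)
    (h2 : InterC u (canon X) b) (h3 : InterC (canon X) (canon X) k) :
    ∃ B, h.S4.IsOp B ∧ (h.S4.LocalIndex → G.S16.LocalIndex →
      8 * (h.S4.ind B : ℂ) + (G.S16.ind (G.S16.BofA G.A16) : ℂ) = -(4 * (a - b) + k)) := by
  obtain ⟨θ, hθ⟩ := h.cn
  have l4 := h.isLC hθ
  have o4 := l4.isOp (h.gauge hθ)
  refine ⟨_, o4, fun i4 i16 => ?_⟩
  obtain ⟨n, p, ψ, -, c1, -, c2, c3⟩ := exists_pou G.W_open G.W_mem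
  rw [i4 _ _ l4 o4 n p ψ c1 c2 c3, i16 _ _ G.isLC16 G.isOp16 n p ψ c1 c2 c3, Finset.mul_sum,
    ← Finset.sum_add_distrib]
  have hc := h.cw hu hθ h1 h2 h3 c1 c2 c3
  have hpi : (16 * Real.pi ^ 2 : ℂ) ≠ 0 :=
    mul_ne_zero (by norm_num) (pow_ne_zero _ (ofReal_ne_zero.2 Real.pi_ne_zero))
  have e : -(4 * (a - b) + k) = (16 * Real.pi ^ 2 : ℂ)⁻¹ *
      (-(16 * Real.pi ^ 2 : ℂ) * (4 * (a - b) + k)) := by
    rw [neg_mul, mul_neg, inv_mul_cancel_left₀ hpi]
  rw [e, ← hc, Finset.mul_sum]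
  refine Finset.sum_congr rfl fun i _ => ?_
  have r : ContinuousOn (fun z => (G.S16.rho (p i) z : ℂ)) (G.S16.V (p i)) :=
    continuous_ofReal.comp_continuousOn (G.S16.rho_sm (p i)).continuousOn
  have j4 := h.S4.int_on (c1 i) (c2 i) ((l4.dens_cont (p i)).mul r)
  have j16 := G.S16.int_on (c1 i) (c2 i) ((G.isLC16.dens_cont (p i)).mul r)
  simp only [mul_assoc]
  rw [← integral_const_mul, ← integral_const_mul]
  refine ((integral_add (j4.const_mul 8) j16).symm.trans ?_)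
  refine setIntegral_congr_fun (G.S16.V_open (p i)).measurableSet fun z hz => ?_
  have := h.dens_pt hθ hz
  simp only [Pi.mul_apply]
  linear_combination (ψ i ((chartAt C2 (p i)).symm z) : ℂ) * this

end Vale.Agent.P267I
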