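import Vale.Agent.P267I.SyA
import Vale.Agent.P267G.G3

/-! Basic facts on Clifford bundle data: partitions of unity, integrals in charts. -/

open scoped Manifold ContDiff Topology
open Filter Matrix MeasureTheory Set

noncomputable section

namespace Vale.Agent.P267I

open Vale.Agent.P267F

set_option linter.unusedSectionVars false

variable {X : Type} [TopologicalSpace X] [ChartedSpace C2 X] [MeasurableSpace X] [BorelSpace X]
  {N : ℕ} (S : Pre X N)

theorem Sy_open (p : X) : IsOpen (S.V p) :=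
  (chartAt C2 p).isOpen_image_of_subset_source (S.W_open p) (S.W_sub p)

theorem Sy_tgt (p : X) : S.V p ⊆ (chartAt C2 p).target := by
  rintro _ ⟨x, hx, rfl⟩
  exact (chartAt C2 p).map_source (S.W_sub p hx)

theorem Sy_mem {p : X} {z : C2} (hz : z ∈ S.V p) : (chartAt C2 p).symm z ∈ S.W p := by
  obtain ⟨x, hx, rfl⟩ := hz
  rwa [(chartAt C2 p).left_inv (S.W_sub p hx)]

theorem Sy_rho (p : X) : ContDiffOn ℝ ∞ (S.rho p) (S.V p) := by
  refine ContDiffOn.inv ?_ fun z hz => (S.e_pos p z hz).ne'
  simp only [fdet, det_apply', of_apply, Sy_co_eq]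
  exact ContDiffOn.sum fun σ _ => contDiffOn_const.mul
    (contDiffOn_prod fun i _ => (Sy_co i).contDiff.comp_contDiffOn (S.e_sm p _))

theorem Sy_pos {p : X} {z : C2} (hz : z ∈ S.V p) : 0 < S.rho p z := inv_pos.2 (S.e_pos p z hz)

theorem Sy_ae (p : X) : AEMeasurable (chartAt C2 p).symm
    ((volume.restrict (S.V p)).withDensity fun z => ENNReal.ofReal (S.rho p z)) :=
  (((chartAt C2 p).continuousOn_symm.mono (Sy_tgt S p)).aemeasurable
    (Sy_open S p).measurableSet).mono_ac (withDensity_absolutelyContinuous _ _)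

theorem Sy_ae2 (p : X) :
    AEMeasurable (fun z => ENNReal.ofReal (S.rho p z)) (volume.restrict (S.V p)) :=
  ((Sy_rho S p).continuousOn.aemeasurable (Sy_open S p).measurableSet).ennreal_ofReal

/-- The integral in a chart. -/
theorem Sy_chart (p : X) {f : X → ℂ} (hf : Continuous f) (h0 : ∀ x ∉ S.W p, f x = 0) :
    ∫ x, f x ∂S.μ = ∫ z in S.V p, S.rho p z • f ((chartAt C2 p).symm z) := by
  rw [← setIntegral_eq_integral_of_forall_compl_eq_zero h0, S.μ_eq]
  refine (integral_map (Sy_ae S p) hf.aestronglyMeasurable).trans ?_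
  rw [integral_withDensity_eq_integral_toReal_smul₀ (Sy_ae2 S p)
    (.of_forall fun _ => ENNReal.ofReal_lt_top)]
  exact setIntegral_congr_fun (Sy_open S p).measurableSet fun z hz => by
    simp only [ENNReal.toReal_ofReal (Sy_pos S hz).le]

variable [CompactSpace X]

theorem Sy_cpt {p : X} {K : Set X} (hK : IsClosed K) (h : K ⊆ S.W p) :
    IsCompact (chartAt C2 p '' K) :=
  hK.isCompact.image_of_continuousOn ((chartAt C2 p).continuousOn.mono (h.trans (S.W_sub p)))

theorem Sy_int0 (p : X) {f : X → ℂ} (hf : Continuous f) (h0 : tsupport f ⊆ S.W p) :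
    Integrable f S.μ := by
  rw [← integrableOn_iff_integrable_of_support_subset ((subset_tsupport f).trans h0), IntegrableOn,
    S.μ_eq]
  refine (integrable_map_measure hf.aestronglyMeasurable (Sy_ae S p)).2 ?_
  rw [integrable_withDensity_iff_integrable_smul₀' (Sy_ae2 S p)
    (.of_forall fun _ => ENNReal.ofReal_lt_top)]
  have k : chartAt C2 p '' tsupport f ⊆ S.V p := image_mono h0
  have c : ContinuousOn (fun z => S.rho p z • f ((chartAt C2 p).symm z)) (S.V p) :=
    (Sy_rho S p).continuousOn.smul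
      (hf.comp_continuousOn ((chartAt C2 p).continuousOn_symm.mono (Sy_tgt S p)))
  refine IntegrableOn.congr_fun (((c.mono k).integrableOn_compact
    (Sy_cpt S (isClosed_tsupport f) h0)).of_forall_diff_eq_zero (Sy_open S p).measurableSet
      fun z hz => ?_) (fun z hz => ?_) (Sy_open S p).measurableSet
  · rw [image_eq_zero_of_notMem_tsupport fun h => hz.2
      ⟨_, h, (chartAt C2 p).right_inv (Sy_tgt S p hz.1)⟩, smul_zero]
  · simp only [ENNReal.toReal_ofReal (Sy_pos S hz).le, Function.comp_apply]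

variable [T2Space X] [IsManifold 𝓘(ℂ, C2) ω X] [ConnectedSpace X]

/-- A smooth partition of unity. -/
theorem Sy_pu : ∃ (m : ℕ) (c : Fin m → X) (ψ : Fin m → X → ℝ), (∀ a, Continuous (ψ a)) ∧
    (∀ a, tsupport (ψ a) ⊆ S.W (c a)) ∧ (∀ x, ∑ a, ψ a x = 1) ∧ (∀ a x, 0 ≤ ψ a x) ∧
    ∀ a p, ContDiffOn ℝ ∞ (fun z => (ψ a ((chartAt C2 p).symm z) : ℂ)) (chartAt C2 p).target := by
  obtain ⟨m, Q, c, hQ, hc⟩ := P267.exists_atf S.W fun p => (S.W_open p).mem_nhds (S.W_mem p)
  obtain ⟨ρ, hρ, -⟩ := hQ.exact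
  have k := fun a => hQ.smAt (hρ.sm a)
  refine ⟨m, c, ρ, fun a => continuous_iff_continuousAt.2 fun x => ?_,
    fun a => (hρ.supp a).trans (hc a), hρ.sum, hρ.nonneg, fun a p z hz => ?_⟩
  · obtain ⟨b, hb⟩ := hQ.cover x
    have := ((hρ.sm a b).continuousOn.continuousAt
      ((Q b).open_target.mem_nhds ((Q b).map_source hb))).comp ((Q b).continuousAt hb)
    exact this.congr (((Q b).eventually_left_inverse hb).mono fun y hy => by simp [hy])
  · have := (((P267.isCh_chartAt p).sm _ ((chartAt C2 p).map_target hz) _).1 (k a _)).self_of_nhds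
    rw [(chartAt C2 p).right_inv hz] at this
    exact this.contDiffWithinAt

theorem Sy_int {f : X → ℂ} (hf : Continuous f) : Integrable f S.μ := by
  obtain ⟨m, c, ψ, h1, h2, h3, -, -⟩ := Sy_pu S
  have : f = fun x => ∑ a, (ψ a x : ℂ) * f x := funext fun x => by
    rw [← Finset.sum_mul, ← Complex.ofReal_sum, h3, Complex.ofReal_one, one_mul]
  rw [this]
  refine integrable_finset_sum _ fun a _ => Sy_int0 S (c a)
    ((Complex.continuous_ofReal.comp (h1 a)).mul hf) ((closure_mono fun x hx => ?_).trans (h2 a))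
  exact fun h => hx (by simp [h])

theorem Sy_dot (p x : X) (a b : Vec N) :
    star (S.U p x *ᵥ a) ⬝ᵥ (S.U p x *ᵥ b) = star a ⬝ᵥ b := by
  rw [star_mulVec, dotProduct_mulVec, vecMul_vecMul, S.U_unit, vecMul_one]

theorem Sy_cont {s t : X → Vec N} (hs : ∀ p, ContinuousOn (S.loc p s) (S.V p))
    (ht : ∀ p, ContinuousOn (S.loc p t) (S.V p)) : Continuous fun x => star (s x) ⬝ᵥ t x := by
  refine continuous_iff_continuousAt.2 fun x => ?_
  have hx := S.W_sub x (S.W_mem x)
  have n := (Sy_open S x).mem_nhds ⟨x, S.W_mem x, rfl⟩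
  have c1 := ((hs x).continuousAt n).comp ((chartAt C2 x).continuousAt hx)
  have c2 := ((ht x).continuousAt n).comp ((chartAt C2 x).continuousAt hx)
  have c3 : ContinuousAt (fun y => star (S.loc x s (chartAt C2 x y)) ⬝ᵥ
      S.loc x t (chartAt C2 x y)) x := by
    simp only [dotProduct]
    exact tendsto_finset_sum _ fun i _ =>
      ((continuous_apply i).continuousAt.comp c1).star.mul ((continuous_apply i).continuousAt.comp c2)
  refine c3.congr (((chartAt C2 x).eventually_left_inverse hx).mono fun y hy => ?_)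
  simp only [Pre.loc, hy, Sy_dot]

end Vale.Agent.P267I
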