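import Vale.Agent.P267I.SyB
import Vale.Agent.P267I.Cl

/-! The Dirac operator of a Clifford connection is symmetric. -/

open scoped Manifold ContDiff Topology
open Filter Matrix MeasureTheory Set

noncomputable section

namespace Vale.Agent.P267I

open Vale.Agent.P267F

set_option linter.unusedSectionVars false

theorem Sy_zero {F : C2 → ℂ} {V K : Set C2} (hV : IsOpen V) (hK : IsCompact K) (h : K ⊆ V)
    (hF : ContDiffOn ℝ ∞ F V) (h0 : ∀ z ∈ V, z ∉ K → F z = 0) (v : C2) :
    IntegrableOn (fun z => fderiv ℝ F z v) V ∧ ∫ z in V, fderiv ℝ F z v = 0 := by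
  classical
  set G := V.indicator F
  have g0 : ∀ z ∉ K, G z = 0 := fun z hz => by
    by_cases hv : z ∈ V
    · exact (indicator_of_mem hv _).trans (h0 z hv hz)
    · exact indicator_of_notMem hv _
  have g1 : ∀ z ∈ V, G =ᶠ[𝓝 z] F := fun z hz =>
    Filter.mem_of_superset (hV.mem_nhds hz) fun y hy => indicator_of_mem hy _
  have g2 : ∀ z ∉ K, G =ᶠ[𝓝 z] fun _ => 0 := fun z hz =>
    Filter.mem_of_superset (hK.isClosed.isOpen_compl.mem_nhds hz) g0
  have g3 : ContDiff ℝ ∞ G := contDiff_iff_contDiffAt.2 fun z => by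
    by_cases hz : z ∈ K
    · exact (hF.contDiffAt (hV.mem_nhds (h hz))).congr_of_eventuallyEq (g1 z (h hz))
    · exact contDiffAt_const.congr_of_eventuallyEq (g2 z hz)
  have g4 : HasCompactSupport G := .intro hK g0
  have g5 : Integrable fun z => fderiv ℝ G z v :=
    ((g3.continuous_fderiv (by simp)).clm_apply continuous_const).integrable_of_hasCompactSupport
      (g4.fderiv_apply ℝ v)
  have g6 : EqOn (fun z => fderiv ℝ G z v) (fun z => fderiv ℝ F z v) V := fun z hz => by
    simp only [(g1 z hz).fderiv_eq]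
  refine ⟨g5.integrableOn.congr_fun g6 hV.measurableSet, ?_⟩
  rw [← setIntegral_congr_fun hV.measurableSet g6,
    setIntegral_eq_integral_of_forall_compl_eq_zero fun z hz => by
      simp [(g2 z fun k => hz (h k)).fderiv_eq]]
  have := integral_mul_fderiv_eq_neg_fderiv_mul_of_integrable (μ := volume)
    (f := fun _ : C2 => (1 : ℂ)) (g := G) (v := v) (by simp) (by simpa using g5)
    (by simpa using g3.continuous.integrable_of_hasCompactSupport g4)
    (fun _ _ => differentiableAt_const _) fun z _ => g3.differentiable (by simp) z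
  simpa using this

theorem Sy_fd {N : ℕ} {f g : C2 → Vec N} {z : C2} (hf : DifferentiableAt ℝ f z)
    (hg : DifferentiableAt ℝ g z) (c : Mat N) (v : C2) :
    fderiv ℝ (fun y => star (f y) ⬝ᵥ c *ᵥ g y) z v =
      star (fderiv ℝ f z v) ⬝ᵥ c *ᵥ g z + star (f z) ⬝ᵥ c *ᵥ fderiv ℝ g z v := by
  have f1 := fun i => (hasFDerivAt_pi'.1 hf.hasFDerivAt i).star
  have g1 := hasFDerivAt_pi'.1 hg.hasFDerivAt
  have := (HasFDerivAt.fun_sum (u := Finset.univ) fun i _ => (f1 i).mul
    (HasFDerivAt.fun_sum (u := Finset.univ) fun j _ => (g1 j).const_mul (c i j))).fderiv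
  refine (congrArg (fun L : C2 →L[ℝ] ℂ => L v) this).trans ?_
  simp only [ContinuousLinearMap.sum_apply, ContinuousLinearMap.add_apply,
    ContinuousLinearMap.smul_apply, dotProduct, mulVec, smul_eq_mul, ← Finset.sum_add_distrib]
  refine Finset.sum_congr rfl fun i _ => ?_
  simp
  ring

theorem Sy_adj {N : ℕ} (M : Mat N) (a b : Vec N) : star (M *ᵥ a) ⬝ᵥ b = star a ⬝ᵥ Mᴴ *ᵥ b := by
  rw [star_mulVec, dotProduct_mulVec]

variable {X : Type} [TopologicalSpace X] [ChartedSpace C2 X] [MeasurableSpace X] [BorelSpace X]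
  {N : ℕ} {S : Pre X N} {A : X → Fin 4 → C2 → Mat N} {om : X → Fin 4 → Fin 4 → Fin 4 → C2 → ℝ}

theorem Sy_pt (hL : S.IsLC A om) {p : X} {z : C2} (hz : z ∈ S.V p) {f g : C2 → Vec N}
    (hf : DifferentiableAt ℝ f z) (hg : DifferentiableAt ℝ g z) :
    S.rho p z • (star (S.Dloc (S.BofA A) p f z) ⬝ᵥ g z - star (f z) ⬝ᵥ S.Dloc (S.BofA A) p g z) =
      -∑ b, ∑ i, fderiv ℝ (fun y => (S.rho p y * co (S.e p b y) i) •
        (star (f y) ⬝ᵥ S.c b *ᵥ g y)) z (bs i) := by
  have n := (Sy_open S p).mem_nhds hz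
  have d : ∀ b, DifferentiableAt ℝ (fun y => star (f y) ⬝ᵥ S.c b *ᵥ g y) z := fun b => by
    simp only [dotProduct, mulVec]
    exact DifferentiableAt.fun_sum fun i _ => (differentiableAt_pi.1 hf i).star.mul
      (DifferentiableAt.fun_sum fun j _ => (differentiableAt_pi.1 hg j).const_mul _)
  have k := fun b => Sy_div (e := S.e p) (om := fun k a b => om p k a b z)
    (fun a => ((S.e_sm p a).contDiffAt n).differentiableAt (by simp)) (S.e_pos p z hz).ne'
    (fun k a => by linarith [hL.om_skew p k a a z hz]) (fun j k => hL.tf p j k z hz) b (d b)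
  simp only [Pre.rho, k, ← Finset.smul_sum, ← smul_neg, Sy_fd hf hg]
  congr 1
  have c1 : ∀ a, star (f z) ⬝ᵥ A p a z *ᵥ S.c a *ᵥ g z = star (f z) ⬝ᵥ S.c a *ᵥ A p a z *ᵥ g z -
      ∑ b, om p a b a z • (star (f z) ⬝ᵥ S.c b *ᵥ g z) := fun a => by
    have := congrArg (fun M => star (f z) ⬝ᵥ M *ᵥ g z) (hL.comm p a a z hz)
    simp only [sub_mulVec, dotProduct_sub, ← mulVec_mulVec, sum_mulVec, dotProduct_sum,
      smul_mulVec, dotProduct_smul] at this
    rw [eq_add_of_sub_eq this, add_comm, sub_eq_add_neg, ← Finset.sum_neg_distrib]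
    congr 1
    refine Finset.sum_congr rfl fun b _ => ?_
    rw [hL.om_skew p a a b z hz]
    simp
  simp only [Pre.Dloc, Pre.BofA, star_add, star_sum, add_dotProduct, sum_dotProduct,
    dotProduct_add, dotProduct_sum, sum_mulVec, ← mulVec_mulVec, Sy_adj, S.skew,
    hL.A_skew p _ z hz, neg_mulVec, mulVec_neg, dotProduct_neg, neg_neg, c1,
    Finset.sum_add_distrib, Finset.sum_sub_distrib, Finset.sum_neg_distrib, Finset.sum_smul]
  rw [Finset.sum_comm (f := fun a b => om p a b a z • (star (f z) ⬝ᵥ S.c b *ᵥ g z))]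
  ring

theorem Sy_B (hL : S.IsLC A om) (p : X) (i j : Fin N) :
    ContDiffOn ℝ ∞ (fun z => S.BofA A p z i j) (S.V p) := by
  simp only [Pre.BofA, Matrix.sum_apply, mul_apply]
  exact ContDiffOn.sum fun a _ => ContDiffOn.sum fun k _ => contDiffOn_const.mul (hL.A_sm p a k j)

theorem Sy_odd (hL : S.IsLC A om) {p : X} {z : C2} (hz : z ∈ S.V p) :
    S.BofA A p z * S.gam = -(S.gam * S.BofA A p z) := by
  have hc : IsCl S.c := S.rel
  have g : ∀ a, S.c a * S.gam = -(S.gam * S.c a) := hc.c_gam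
  have k : ∀ k, A p k z * S.gam = S.gam * A p k z := fun k => by
    set w : Fin 4 → Fin 4 → ℂ := fun a b => om p k a b z
    have k1 : ∀ a, Commute (A p k z - sp S.c w) (S.c a) := fun a => by
      have := hc.sp_comm_c (w := w) (fun a b => by
        simp only [w, hL.om_skew p k a b z hz, Complex.ofReal_neg]) a
      rw [← hL.comm p k a z hz] at this
      change _ * _ = _ * _
      rw [sub_mul, mul_sub]
      exact sub_eq_sub_iff_sub_eq_sub.2 this.symm
    have k2 : Commute (A p k z - sp S.c w) S.gam :=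
      (((k1 0).mul_right (k1 1)).mul_right (k1 2)).mul_right (k1 3)
    have k3 : Commute (sp S.c w) S.gam := by
      refine Commute.smul_left (Commute.sum_left _ _ _ fun a _ => Commute.sum_left _ _ _
        fun b _ => Commute.smul_left ?_ _) _
      change _ * _ = _ * _
      rw [mul_assoc, g, mul_neg, ← mul_assoc, g, neg_mul, neg_neg, mul_assoc]
    simpa using (k2.add_left k3).eq
  simp only [Pre.BofA, Finset.sum_mul, Finset.mul_sum, ← Finset.sum_neg_distrib]
  exact Finset.sum_congr rfl fun a _ => by rw [mul_assoc, k, ← mul_assoc, g, neg_mul, mul_assoc]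

variable {B : X → C2 → Mat N}

theorem Sy_D (hB : ∀ p i j, ContDiffOn ℝ ∞ (fun z => B p z i j) (S.V p))
    (hc : ∀ p, ∀ x ∈ S.W p, ∀ s, DifferentiableAt ℝ (S.loc p s) (chartAt C2 p x) →
      S.U p x *ᵥ S.D B s x = S.Dloc B p (S.loc p s) (chartAt C2 p x))
    {s : X → Vec N} (hs : S.Sm s) (p : X) : EqOn (S.loc p (S.D B s)) (S.Dloc B p (S.loc p s))
      (S.V p) ∧ ContinuousOn (S.loc p (S.D B s)) (S.V p) := by
  have e : EqOn (S.loc p (S.D B s)) (S.Dloc B p (S.loc p s)) (S.V p) := fun z hz => by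
    have r := (chartAt C2 p).right_inv (Sy_tgt S p hz)
    have := hc p _ (Sy_mem S hz) s (by
      rw [r]
      exact ((hs p).contDiffAt ((Sy_open S p).mem_nhds hz)).differentiableAt (by simp))
    rwa [r] at this
  refine ⟨e, ContinuousOn.congr ?_ e⟩
  refine ContinuousOn.add (continuousOn_finset_sum _ fun a _ => ?_) (continuousOn_pi.2 fun i => ?_)
  · exact (continuous_const.matrix_mulVec continuous_id).comp_continuousOn
      (((hs p).continuousOn_fderiv_of_isOpen (Sy_open S p) (by simp)).clm_apply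
        (S.e_sm p a).continuousOn)
  · simp only [mulVec, dotProduct]
    exact continuousOn_finset_sum _ fun j _ =>
      (hB p i j).continuousOn.mul (continuousOn_pi.1 (hs p).continuousOn j)

variable [CompactSpace X] [T2Space X] [IsManifold 𝓘(ℂ, C2) ω X] [ConnectedSpace X]

theorem Sy_loc (hL : S.IsLC A om)
    (hc : ∀ p, ∀ x ∈ S.W p, ∀ s, DifferentiableAt ℝ (S.loc p s) (chartAt C2 p x) →
      S.U p x *ᵥ S.D (S.BofA A) s x = S.Dloc (S.BofA A) p (S.loc p s) (chartAt C2 p x))
    {s t : X → Vec N} (hs : S.Sm s) (ht : S.Sm t) {p : X} {K : Set X} (hK : IsClosed K)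
    (h : K ⊆ S.W p) (h0 : ∀ x ∉ K, s x = 0) :
    S.ip (S.D (S.BofA A) s) t = S.ip s (S.D (S.BofA A) t) := by
  have d1 := Sy_D (Sy_B hL) hc hs
  have d2 := Sy_D (Sy_B hL) hc ht
  have c1 := Sy_cont S (fun p => (d1 p).2) fun p => (ht p).continuousOn
  have c2 := Sy_cont S (fun p => (hs p).continuousOn) fun p => (d2 p).2
  have z1 : ∀ x ∉ K, S.D (S.BofA A) s x = 0 := fun x hx => by
    have e : S.loc x s =ᶠ[𝓝 (chartAt C2 x x)] fun _ => 0 :=
      ((chartAt C2 x).tendsto_symm (mem_chart_source C2 x)).eventually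
        (hK.isOpen_compl.mem_nhds hx) |>.mono fun y hy => by simp [Pre.loc, h0 _ hy]
    simp [Pre.D, Pre.Dloc, e.fderiv_eq, e.self_of_nhds]
  rw [← sub_eq_zero, Pre.ip, Pre.ip, ← integral_sub (Sy_int S c1) (Sy_int S c2),
    Sy_chart S p (c1.fun_sub c2) fun x hx => by simp [z1 x fun k => hx (h k), h0 x fun k => hx (h k)]]
  have k : ∀ b i, _ := fun b i => Sy_zero (F := fun y => (S.rho p y * co (S.e p b y) i) •
      (star (S.loc p s y) ⬝ᵥ S.c b *ᵥ S.loc p t y)) (Sy_open S p) (Sy_cpt S hK h) (image_mono h)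
    (by
      refine ((Sy_rho S p).mul ?_).smul ?_
      · simp only [Sy_co_eq]
        exact (Sy_co i).contDiff.comp_contDiffOn (S.e_sm p b)
      · simp only [dotProduct, mulVec]
        exact ContDiffOn.sum fun i _ => (Complex.conjCLE.contDiff.comp_contDiffOn
          (contDiffOn_pi.1 (hs p) i)).mul
          (ContDiffOn.sum fun j _ => contDiffOn_const.mul (contDiffOn_pi.1 (ht p) j)))
    (fun z hz hk => by
      simp [Pre.loc, h0 _ fun k => hk ⟨_, k, (chartAt C2 p).right_inv (Sy_tgt S p hz)⟩]) (bs i)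
  refine (setIntegral_congr_fun (g := fun z => -∑ b, ∑ i, fderiv ℝ (fun y => (S.rho p y *
    co (S.e p b y) i) • (star (S.loc p s y) ⬝ᵥ S.c b *ᵥ S.loc p t y)) z (bs i))
    (Sy_open S p).measurableSet fun z hz => ?_).trans ?_
  · have n := (Sy_open S p).mem_nhds hz
    simp only []
    rw [← Sy_pt hL hz (((hs p).contDiffAt n).differentiableAt (by simp))
      (((ht p).contDiffAt n).differentiableAt (by simp)), ← (d1 p).1 hz, ← (d2 p).1 hz]
    simp only [Pre.loc, Sy_dot]
  · rw [integral_neg, integral_finset_sum _ fun b _ => integrable_finset_sum _ fun i _ => (k b i).1]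
    simp only [integral_finset_sum _ fun i _ => (k _ i).1, (k _ _).2, Finset.sum_const_zero,
      neg_zero]

theorem Pre.symm_of' (hL : S.IsLC A om)
    (hc : ∀ p, ∀ x ∈ S.W p, ∀ s, DifferentiableAt ℝ (S.loc p s) (chartAt C2 p x) →
      S.U p x *ᵥ S.D (S.BofA A) s x = S.Dloc (S.BofA A) p (S.loc p s) (chartAt C2 p x)) :
    S.IsOp (S.BofA A) := by
  refine ⟨Sy_B hL, fun p z hz => Sy_odd hL hz, hc, fun s t hs ht => ?_⟩
  obtain ⟨m, c, ψ, h1, h2, h3, -, h4⟩ := Sy_pu S
  let r : Fin m → X → Vec N := fun a x => (ψ a x : ℂ) • s x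
  have r0 : ∀ a p, S.loc p (r a) = fun z => (ψ a ((chartAt C2 p).symm z) : ℂ) • S.loc p s z :=
    fun a p => funext fun z => by simp only [Pre.loc, r, mulVec_smul]
  have r1 : ∀ a, S.Sm (r a) := fun a p => by
    rw [r0]
    exact ((h4 a p).mono (Sy_tgt S p)).smul (hs p)
  have r2 : ∀ x, s x = ∑ a, r a x := fun x => by
    rw [← Finset.sum_smul, ← Complex.ofReal_sum, h3, Complex.ofReal_one, one_smul]
  have r3 : ∀ x, S.D (S.BofA A) s x = ∑ a, S.D (S.BofA A) (r a) x := fun x => by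
    have e : S.loc x s = fun z => ∑ a, S.loc x (r a) z := funext fun z => by
      simp only [Pre.loc, r2 _, mulVec_sum]
    have n := (Sy_open S x).mem_nhds ⟨x, S.W_mem x, rfl⟩
    simp only [Pre.D, Pre.Dloc, e]
    rw [fderiv_fun_sum fun a _ => ((r1 a x).contDiffAt n).differentiableAt (by simp)]
    simp only [ContinuousLinearMap.sum_apply, mulVec_sum, mulVec_add, Finset.sum_add_distrib]
    rw [Finset.sum_comm]
  have k := fun a => Sy_loc hL hc (r1 a) ht (isClosed_tsupport _) (h2 a) fun x hx => by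
    simp [r, image_eq_zero_of_notMem_tsupport hx]
  have d2 := Sy_D (Sy_B hL) hc ht
  simp only [Pre.ip] at k ⊢
  conv_rhs => simp only [r2]
  simp only [r3, star_sum, sum_dotProduct]
  rw [integral_finset_sum _ fun a _ => Sy_int S (Sy_cont S
      (fun p => (Sy_D (Sy_B hL) hc (r1 a) p).2) fun p => (ht p).continuousOn),
    integral_finset_sum _ fun a _ => Sy_int S (Sy_cont S
      (fun p => (r1 a p).continuousOn) fun p => (d2 p).2)]
  exact Finset.sum_congr rfl fun a _ => k a

omit [CompactSpace X] [T2Space X] [IsManifold 𝓘(ℂ, C2) ω X] [ConnectedSpace X] in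
theorem Pre.symm_of (hX : IsSurface X) (hL : S.IsLC A om)
    (hc : ∀ p, ∀ x ∈ S.W p, ∀ s, DifferentiableAt ℝ (S.loc p s) (chartAt C2 p x) →
      S.U p x *ᵥ S.D (S.BofA A) s x = S.Dloc (S.BofA A) p (S.loc p s) (chartAt C2 p x)) :
    S.IsOp (S.BofA A) := by
  obtain ⟨a1, a2, a3, a4⟩ := hX
  exact Pre.symm_of' hL hc

end Vale.Agent.P267I
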