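import Vale.Agent.P267I.XM
import Vale.Agent.P267I.Local
import Vale.Agent.P267I.Glue2
import Vale.Agent.P267Y.JS
import Vale.Agent.P267CW.PD

/-! The index formula and the curves. -/

open scoped Manifold ContDiff Topology
open Filter Matrix MeasureTheory

noncomputable section

namespace Vale.Agent.P267I

open Vale.Agent.P267F

variable {X : Type} [TopologicalSpace X] [ChartedSpace C2 X]

theorem Id_uniq {u : X → X → ℂ} {d d' : ℤ} (h : Euler u d) (h' : Euler u d') : d = d' :=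
  h.2.symm.trans h'.2

theorem indexThmC (hX : IsSurface X) : IndexThmC X := by
  obtain ⟨a1, a2, a3, a4⟩ := id hX
  let : MeasurableSpace X := borel X
  have : BorelSpace X := ⟨rfl⟩
  have hK : IsBundle HolAt (canon X) := P267.canon_hol
  have k1 : ∀ (G : Met X) (u l : X → X → ℂ), G.Ln u l → IsBundle HolAt u → ∀ a b k : ℂ,
      InterC u u a → InterC u (canon X) b → InterC (canon X) (canon X) k → ∃ d : ℤ, Euler u d ∧
        8 * (d : ℂ) = 4 * (a - b) + k + G.S16.ind (G.S16.BofA G.A16) :=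
    fun G u l h hu a b k h1 h2 h3 => by
      obtain ⟨B, hB, e⟩ := h.index hu h1 h2 h3
      refine ⟨_, P267Y.euler_S4 hu h hB (hodge hX _) (indInv hX _), ?_⟩
      push_cast
      linear_combination -e (localIndex hX _) (localIndex hX _)
  obtain ⟨G0, l0, -, h0, -⟩ := exists_ln2 hK hK
  obtain ⟨bp, bm, s1, s2⟩ := G0.sig16 hX
  refine ⟨bp, bm, s1, fun u a b k hu h1 h2 h3 => ?_⟩
  obtain ⟨G, l, l', h, h'⟩ := exists_ln2 hu hK
  obtain ⟨d, d1, d2⟩ := k1 G u l h hu a b k h1 h2 h3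
  obtain ⟨e, e1, e2⟩ := k1 G _ l' h' hK k k k h3 h3 h3
  obtain ⟨f, f1, f2⟩ := k1 G0 _ l0 h0 hK k k k h3 h3 h3
  rw [s2, ← Id_uniq e1 f1] at f2
  refine ⟨d, d1, ?_⟩
  push_cast at f2
  linear_combination d2 - e2 + f2

theorem curves (hX : IsSurface X) (h7 : IsClassVII X) : HasCurvesDR X :=
  P267.final_glue (fun _ _ _ h => P267CW.cw_form h) (fun _ _ _ h => P267CW.pd_thm h)
    (fun _ _ _ h => indexThmC h) hX h7

end Vale.Agent.P267I
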