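import Vale.Agent.P267I.XN
import Vale.Agent.P267I.GM
import Vale.Agent.P267I.Inv
import Vale.Agent.P267I.SMain
import Vale.Agent.P267I.Ext16

/-! The index of the signature system. -/

open scoped Manifold ContDiff Topology Kronecker
open Filter Matrix MeasureTheory Complex

noncomputable section

namespace Vale.Agent.P267I

open Vale.Agent.P267F

variable {X : Type} [TopologicalSpace X] [ChartedSpace C2 X] [IsManifold 𝓘(ℂ, C2) ω X]
  [T2Space X] [CompactSpace X] [MeasurableSpace X] [BorelSpace X]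

theorem Met.sig16 (hX : IsSurface X) (M : Met X) :
    ∃ bp bm : ℕ, IsSig X bp bm ∧ M.S16.ind (M.S16.BofA M.A16) = -((bp : ℤ) - bm) := by
  obtain ⟨S, A, h1, h2, h3, h4, h5⟩ := sig_bridge X16.ext16 M M.isLC16 M.isOp16
  rw [← h5]
  exact G.sig_thm X16.ext16 hX h1 h2 h3 h4 (hodge hX S)

end Vale.Agent.P267I
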